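import Vale.Agent.P262.Sharp.Split

/-!
Ordered blocks, and the transfer of the invariant to a child block.
-/

open Finset

namespace Vale.Agent.P262.Sharp

variable {ι : Type*} [Fintype ι] [DecidableEq ι] {d : ℕ}

/-- The block `V`, started at the partial sum `P`, has an order with all squared prefix norms
within `B`. -/
def Good (v : ι → Fin d → ℝ) (P : Fin d → ℝ) (V : Finset ι) (B : ℝ) : Prop :=
  ∃ lst : List ι, lst.Nodup ∧ lst.toFinset = V ∧
    ∀ k : ℕ, ∑ i, (P i + ((lst.take k).map fun a => v a i).sum) ^ 2 ≤ B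

/-- The final bound for squared prefix norms. -/
noncomputable def finalBd (d : ℕ) : ℝ := (Real.sqrt (totalBud d) + 2) ^ 2

section Lists

variable {v : ι → Fin d → ℝ} {B : ℝ}

omit [Fintype ι] in
theorem Good.append {P : Fin d → ℝ} {U W : Finset ι} (hd : Disjoint U W) (h1 : Good v P U B)
    (h2 : Good v (fun i => P i + ∑ a ∈ U, v a i) W B) : Good v P (U ∪ W) B := by
  obtain ⟨l₁, n₁, e₁, b₁⟩ := h1
  obtain ⟨l₂, n₂, e₂, b₂⟩ := h2
  refine ⟨l₁ ++ l₂, List.nodup_append'.mpr ⟨n₁, n₂, ?_⟩, ?_, fun k => ?_⟩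
  · intro a ha hb
    exact Finset.disjoint_left.mp hd (e₁ ▸ List.mem_toFinset.mpr ha)
      (e₂ ▸ List.mem_toFinset.mpr hb)
  · rw [List.toFinset_append, e₁, e₂]
  · rcases le_total k l₁.length with h | h
    · rw [List.take_append, Nat.sub_eq_zero_of_le h]
      simpa using b₁ k
    · refine le_trans (le_of_eq (sum_congr rfl fun i _ => ?_)) (b₂ (k - l₁.length))
      rw [List.take_append, List.take_of_length_le h, List.map_append, List.sum_append,
        ← add_assoc, ← List.sum_toFinset _ n₁, e₁]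

omit [Fintype ι] in
theorem Good.singleton {P : Fin d → ℝ} {a : ι} (h1 : ∑ i, P i ^ 2 ≤ B)
    (h2 : ∑ i, (P i + v a i) ^ 2 ≤ B) : Good v P {a} B := by
  refine ⟨[a], List.nodup_singleton a, by simp, fun k => ?_⟩
  cases k with
  | zero => simpa using h1
  | succ k => simpa using h2

omit [Fintype ι] in
theorem Good.of_zero {P : Fin d → ℝ} {V : Finset ι} (h : ∀ a ∈ V, ∀ i, v a i = 0)
    (hP : ∑ i, P i ^ 2 ≤ B) : Good v P V B := by
  refine ⟨V.toList, V.nodup_toList, V.toList_toFinset, fun k => ?_⟩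
  refine le_trans (le_of_eq (sum_congr rfl fun i _ => ?_)) hP
  rw [← List.sum_toFinset _ (V.nodup_toList.take), sum_eq_zero, add_zero]
  intro a ha
  exact h a (mem_toList.mp (List.mem_of_mem_take (List.mem_toFinset.mp ha))) i

end Lists

/-- The triangle inequality for squared sums. -/
theorem sum_add_sq_le {κ : Type*} (s : Finset κ) (f g : κ → ℝ) {a b : ℝ} (ha : 0 ≤ a) (hb : 0 ≤ b)
    (hf : ∑ i ∈ s, f i ^ 2 ≤ a ^ 2) (hg : ∑ i ∈ s, g i ^ 2 ≤ b ^ 2) :
    ∑ i ∈ s, (f i + g i) ^ 2 ≤ (a + b) ^ 2 := by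
  have h : ∑ i ∈ s, f i * g i ≤ a * b := by
    refine (abs_le_of_sq_le_sq' ?_ (mul_nonneg ha hb)).2
    refine (sum_mul_sq_le_sq_mul_sq s f g).trans ?_
    rw [mul_pow]
    exact mul_le_mul hf hg (sum_nonneg fun _ _ => sq_nonneg _) (sq_nonneg _)
  have e : ∑ i ∈ s, (f i + g i) ^ 2 =
      (∑ i ∈ s, f i ^ 2) + 2 * (∑ i ∈ s, f i * g i) + ∑ i ∈ s, g i ^ 2 := by
    rw [mul_sum, ← sum_add_distrib, ← sum_add_distrib]
    exact sum_congr rfl fun i _ => by ring
  rw [e]
  linarith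

theorem sqrt_shift {x x' y t : ℝ} (ht : 0 ≤ t) (hx : 0 ≤ x) (hy : 0 ≤ y) (h : x + y ≤ x') :
    (Real.sqrt x + t) ^ 2 + y ≤ (Real.sqrt x' + t) ^ 2 := by
  have h1 := Real.sqrt_le_sqrt (show x ≤ x' by linarith)
  have h2 := mul_le_mul_of_nonneg_right h1 ht
  rw [add_sq, add_sq, Real.sq_sqrt hx, Real.sq_sqrt (by linarith : (0:ℝ) ≤ x')]
  linarith

variable (v : ι → Fin d → ℝ) (Lam : Fin d → ℝ) (hLam : ∀ i, 0 ≤ Lam i)

include hLam in
/-- The part of the invariant of a child at level `l + 1` that follows from its second moments. -/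
theorem child_low {l : ℕ} {V W : Finset ι} {P : Fin d → ℝ} (hN : Node v Lam l V P) (hWV : W ⊆ V)
    (hq : ∀ i ∈ solid Lam l, ∀ k ∈ solid Lam l,
      |(∑ a ∈ W, v a i * v a k) - (if i = k then lam Lam (l+1) i else 0)| ≤
        relErr Lam (l+1) * Real.sqrt (lam Lam (l+1) i * lam Lam (l+1) k)) :
    (∀ i, i ∉ solid Lam (l+1) → mass v W i ≤ 2 * lowThr d) ∧
      ∀ i ∈ loose Lam (l+1), mass v W i ≤ 2 * richThr d := by
  have hs : ∀ i ∈ solid Lam l, mass v W i ≤ 2 * lam Lam (l+1) i := by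
    intro i hi
    have h := hq i hi i hi
    have hl : 0 < lam Lam (l+1) i := by rw [lam_succ]; linarith [solid_pos Lam hi]
    rw [if_pos rfl, Real.sqrt_mul_self hl.le] at h
    have he : relErr Lam (l+1) ≤ 1 := (relErr_le Lam hLam (l+1)).trans (by
      rw [div_le_one (by positivity)]; linarith [one_le_dim d])
    have h2 := mul_le_mul_of_nonneg_right he hl.le
    have h3 := (abs_le.mp h).2
    have e : mass v W i = ∑ a ∈ W, v a i * v a i := sum_congr rfl fun a _ => sq _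
    linarith
  constructor
  · intro i hi
    by_cases h : i ∈ solid Lam l
    · have h4 : lam Lam (l+1) i < lowThr d := not_le.mp fun hh => hi ((mem_solid Lam).mpr hh)
      linarith [hs i h]
    · exact (mass_mono v hWV i).trans (hN.low i h)
  · intro i hi
    by_cases h : i ∈ solid Lam l
    · have h4 : lam Lam (l+1) i < richThr d := (mem_filter.mp hi).2
      linarith [hs i h]
    · linarith [mass_mono v hWV i, hN.low i h, lowThr_le_richThr d]

/-- The drop of the potential when passing from `V` to `W`. -/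
noncomputable def drop (l : ℕ) (V W : Finset ι) : ℝ :=
  gainTot v Lam l V - ∑ a ∈ W, gainOf v Lam l V a

theorem drop_nonneg {l : ℕ} {V W : Finset ι} (h : W ⊆ V) : 0 ≤ drop v Lam l V W :=
  sub_nonneg.mpr (sum_le_sum_of_subset_of_nonneg h fun a _ _ => gainOf_nonneg v Lam l V a)

include hLam in
theorem bud_child {l l' : ℕ} (hl : l ≤ l') {V W : Finset ι} (hWV : W ⊆ V)
    (hW : ∀ i ∈ loose Lam l', mass v W i ≤ 2 * richThr d) {m₀ m : ℕ} :
    bud v Lam l V m₀ + 340000 * drop v Lam l V W +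
      allow d * (((loose Lam m).card : ℝ) - (loose Lam m₀).card) ≤ bud v Lam l' W m := by
  have hloss : drop v Lam l V W ≤ ∑ i ∈ loose Lam l,
      (Real.log (1 + mass v V i) - Real.log (1 + mass v W i)) := by
    have e : drop v Lam l V W = ∑ i ∈ loose Lam l,
        (mass v V i - mass v W i) / (1 + mass v V i) := by
      rw [drop, gainTot_eq]
      simp only [gainOf, sub_div, sum_sub_distrib]
      rw [sum_comm]
      simp only [mass, sum_div]
    rw [e]
    refine sum_le_sum fun i _ => ?_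
    have h1 : 0 < 1 + mass v V i := by linarith [mass_nonneg v V i]
    have h2 : 0 < 1 + mass v W i := by linarith [mass_nonneg v W i]
    have h3 := Real.log_le_sub_one_of_pos (div_pos h2 h1)
    rw [Real.log_div h2.ne' h1.ne'] at h3
    have e2 : (mass v V i - mass v W i) / (1 + mass v V i) =
        1 - (1 + mass v W i) / (1 + mass v V i) := by field_simp; ring
    linarith
  have hext : ∑ i ∈ loose Lam l, (capLog d - Real.log (1 + mass v W i)) ≤
      ∑ i ∈ loose Lam l', (capLog d - Real.log (1 + mass v W i)) := by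
    refine sum_le_sum_of_subset_of_nonneg (loose_mono Lam hLam hl) fun i hi _ => ?_
    exact sub_nonneg.mpr (Real.log_le_log (by linarith [mass_nonneg v W i])
      (by linarith [hW i hi]))
  simp only [sum_sub_distrib] at hloss hext
  simp only [bud, sum_sub_distrib]
  linarith

include hLam in
/-- An endpoint inherited from the parent. -/
theorem stale_le {l : ℕ} {V W : Finset ι} {P : Fin d → ℝ} (hN : Node v Lam l V P) (hWV : W ⊆ V)
    (hW : ∀ i ∈ loose Lam (l+1), mass v W i ≤ 2 * richThr d) (Q : Fin d → ℝ)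
    (hQ : ∀ m, l ≤ m →
      ∑ i ∈ loose Lam m, Q i ^ 2 ≤ (Real.sqrt (bud v Lam l V m) + leak Lam l) ^ 2)
    (m : ℕ) (hm : l + 1 ≤ m) :
    ∑ i ∈ loose Lam m, Q i ^ 2 ≤
      (Real.sqrt (bud v Lam (l+1) W m) + leak Lam (l+1)) ^ 2 := by
  refine (hQ m (by omega)).trans (pow_le_pow_left₀
    (add_nonneg (Real.sqrt_nonneg _) (leak_nonneg Lam l)) (add_le_add (Real.sqrt_le_sqrt ?_) ?_) 2)
  · have h := bud_child v Lam hLam (Nat.le_succ l) hWV hW (m₀ := m) (m := m)
    have := drop_nonneg v Lam (l := l) hWV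
    linarith
  · rw [leak_succ]; exact le_add_of_nonneg_right (leakStep_nonneg Lam l)

include hLam in
/-- A new endpoint `T + X/2 + E/2 + δ`. -/
theorem point_le {l : ℕ} {V W : Finset ι} {P : Fin d → ℝ} (hN : Node v Lam l V P) (hWV : W ⊆ V)
    (hW : ∀ i ∈ loose Lam (l+1), mass v W i ≤ 2 * richThr d) (T X E δ M : Fin d → ℝ)
    (hM : ∀ i, M i = T i + X i / 2 + E i / 2 + δ i)
    (hXr : ∀ i ∈ rich Lam l, X i = -2 * T i)
    (hsign : ∑ i ∈ loose Lam l, (T i + X i / 2) * E i ≤ 0)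
    (hEl : ∑ i ∈ loose Lam l, E i ^ 2 ≤ 5184 * gainTot v Lam l V)
    (hEr : ∀ S ⊆ rich Lam l, (∀ i ∈ S, ∀ k ∈ rich Lam l, Lam k ≤ Lam i → k ∈ S) →
      ∑ i ∈ S, E i ^ 2 ≤ 576 * harm d * S.card)
    (hδ : ∑ i, δ i ^ 2 ≤ 1/4) {g : ℝ}
    (hcore : ∑ i ∈ loose Lam l, (T i + X i / 2) ^ 2 +
      2 * ∑ i ∈ loose Lam l, (T i + X i / 2) * δ i ≤
        (Real.sqrt (bud v Lam l V l) + leak Lam (l+1)) ^ 2 + g)
    (hg : g + 2592 * gainTot v Lam l V + 2 * ∑ i ∈ loose Lam l, δ i ^ 2 ≤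
      340000 * drop v Lam l V W)
    (m : ℕ) (hm : l + 1 ≤ m) :
    ∑ i ∈ loose Lam m, M i ^ 2 ≤
      (Real.sqrt (bud v Lam (l+1) W m) + leak Lam (l+1)) ^ 2 := by
  have hsub : loose Lam l ⊆ loose Lam m := loose_mono Lam hLam (by omega)
  set S := loose Lam m \ loose Lam l with hS
  have hSr : S ⊆ rich Lam l := fun i hi => by
    by_contra h
    exact (mem_sdiff.mp hi).2 ((mem_loose Lam).mpr h)
  have hdown : ∀ i ∈ S, ∀ k ∈ rich Lam l, Lam k ≤ Lam i → k ∈ S := by
    intro i hi k hk hle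
    refine mem_sdiff.mpr ⟨mem_filter.mpr ⟨mem_univ _, ?_⟩, fun hc => (mem_loose Lam).mp hc hk⟩
    exact lt_of_le_of_lt (div_le_div_of_nonneg_right hle (by positivity))
      (mem_filter.mp (mem_sdiff.mp hi).1).2
  have hrichpart : ∑ i ∈ S, M i ^ 2 ≤ allow d * S.card := by
    rcases S.eq_empty_or_nonempty with he | hne
    · simp [he]
    have h1 : ∑ i ∈ S, M i ^ 2 ≤ ∑ i ∈ S, (E i ^ 2 / 2 + 2 * δ i ^ 2) := by
      refine sum_le_sum fun i hi => ?_
      have e : M i = E i / 2 + δ i := by rw [hM, hXr i (hSr hi)]; ring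
      rw [e]
      nlinarith [sq_nonneg (E i / 2 - δ i)]
    have h2 : ∑ i ∈ S, δ i ^ 2 ≤ 1/4 :=
      (sum_le_sum_of_subset_of_nonneg (subset_univ S) fun i _ _ => sq_nonneg _).trans hδ
    have h3 := hEr S hSr hdown
    have h4 : (1:ℝ) ≤ S.card := by exact_mod_cast card_pos.mpr hne
    have h5 : (1:ℝ) ≤ harm d * S.card := one_le_mul_of_one_le_of_one_le (one_le_harm d) h4
    rw [sum_add_distrib, ← sum_div, ← mul_sum] at h1
    rw [allow]
    linarith
  have hloose : ∑ i ∈ loose Lam l, M i ^ 2 ≤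
      (Real.sqrt (bud v Lam l V l) + leak Lam (l+1)) ^ 2 + 340000 * drop v Lam l V W := by
    have e : ∀ i ∈ loose Lam l, M i ^ 2 ≤ (T i + X i / 2) ^ 2 + (T i + X i / 2) * E i +
        2 * ((T i + X i / 2) * δ i) + E i ^ 2 / 2 + 2 * δ i ^ 2 := by
      intro i _
      rw [hM]
      nlinarith [sq_nonneg (E i / 2 - δ i)]
    refine (sum_le_sum e).trans ?_
    simp only [sum_add_distrib, ← sum_div, ← mul_sum]
    linarith
  have hb := bud_child v Lam hLam (Nat.le_succ l) hWV hW (m₀ := l) (m := m)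
  rw [← card_sdiff_add_card_eq_card hsub, Nat.cast_add] at hb
  rw [← hS] at hb
  have hb0 : 0 ≤ bud v Lam l V l := bud_nonneg v Lam hLam hN l
  have := drop_nonneg v Lam (l := l) hWV
  have hy : 0 ≤ 340000 * drop v Lam l V W + allow d * S.card :=
    add_nonneg (by positivity) (mul_nonneg (allow_pos d).le (Nat.cast_nonneg _))
  refine le_trans ?_ (sqrt_shift (leak_nonneg Lam (l+1)) hb0 hy (by linarith))
  rw [← sum_sdiff hsub, ← hS]
  linarith

include hLam in
theorem center_sq_le {l : ℕ} {V : Finset ι} {P : Fin d → ℝ} (hN : Node v Lam l V P)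
    (X : Fin d → ℝ) (hX : ∑ i ∈ loose Lam l, (X i / 2) ^ 2 ≤ leakStep Lam l ^ 2) :
    ∑ i ∈ loose Lam l, (P i + (∑ a ∈ V, v a i) / 2 + X i / 2) ^ 2 ≤
      (Real.sqrt (bud v Lam l V l) + leak Lam (l+1)) ^ 2 := by
  rw [leak_succ, ← add_assoc]
  refine sum_add_sq_le _ _ _ (add_nonneg (Real.sqrt_nonneg _) (leak_nonneg Lam l))
    (leakStep_nonneg Lam l) ?_ hX
  have h : ∀ i ∈ loose Lam l, (P i + (∑ a ∈ V, v a i) / 2) ^ 2 ≤
      P i ^ 2 / 2 + (P i + ∑ a ∈ V, v a i) ^ 2 / 2 := fun i _ => by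
    nlinarith [sq_nonneg (∑ a ∈ V, v a i)]
  refine (sum_le_sum h).trans ?_
  rw [sum_add_distrib, ← sum_div, ← sum_div]
  linarith [hN.left l le_rfl, hN.right l le_rfl]

include hLam in
/-- Any endpoint bound implies the final bound. -/
theorem final_le {l : ℕ} {V : Finset ι} (Q : Fin d → ℝ)
    (hQ : ∀ m, l ≤ m →
      ∑ i ∈ loose Lam m, Q i ^ 2 ≤ (Real.sqrt (bud v Lam l V m) + leak Lam l) ^ 2) :
    ∑ i, Q i ^ 2 ≤ finalBd d := by
  obtain ⟨m, hm, hu, -⟩ := exists_all_loose Lam hLam l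
  have h := hQ m hm
  rw [hu] at h
  refine h.trans (pow_le_pow_left₀ (add_nonneg (Real.sqrt_nonneg _) (leak_nonneg Lam l)) ?_ 2)
  linarith [Real.sqrt_le_sqrt (bud_le_total v Lam l V m), leak_le Lam hLam l]

end Vale.Agent.P262.Sharp
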