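import Vale.Agent.P262.Sharp.Tree
import Mathlib.Analysis.InnerProductSpace.Spectrum

/-!
From coordinates to the Euclidean norm.
-/

open Finset
open scoped RealInnerProductSpace

namespace Vale.Agent.P262.Sharp

theorem finalBd_le {d : ℕ} (hd : 0 < d) :
    Real.sqrt (finalBd d) ≤ 6000 * Real.sqrt ((d : ℝ) * Real.log ((d : ℝ) + 1)) := by
  set L := Real.log ((d : ℝ) + 1) with hL
  have hd0 : (1:ℝ) ≤ (d : ℝ) := Nat.one_le_cast.mpr hd
  have hL0 : 0.69 ≤ L := le_trans (by linarith [Real.log_two_gt_d9] : (0.69:ℝ) ≤ Real.log 2)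
    (Real.log_le_log two_pos (by linarith))
  have hc := capLog_le d
  have h1 : totalBud d ≤ (5500 * Real.sqrt ((d : ℝ) * L)) ^ 2 := by
    rw [mul_pow, Real.sq_sqrt (by positivity), totalBud, allow, harm, ← hL]
    calc (d : ℝ) * (340000 * capLog d + 300 * (1 + L)) ≤ (d : ℝ) * (5500 ^ 2 * L) := by
          refine mul_le_mul_of_nonneg_left ?_ (Nat.cast_nonneg _)
          rw [← hL] at hc
          norm_num
          linarith
      _ = _ := by ring
  have h2 : 0.8 ≤ Real.sqrt ((d : ℝ) * L) := by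
    refine Real.le_sqrt_of_sq_le ?_
    have : 1 * 0.69 ≤ (d : ℝ) * L := mul_le_mul hd0 hL0 (by norm_num) (by linarith)
    norm_num at this ⊢
    linarith
  have h3 : Real.sqrt (totalBud d) ≤ 5500 * Real.sqrt ((d : ℝ) * L) :=
    (Real.sqrt_le_left (by positivity)).mpr h1
  rw [finalBd, Real.sqrt_sq (by positivity)]
  linarith

theorem exists_perm_of_list {N : ℕ} {lst : List (Fin N)} (hn : lst.Nodup)
    (hu : lst.toFinset = univ) : ∃ π : Equiv.Perm (Fin N), List.ofFn π = lst := by
  have hlen : lst.length = N := by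
    rw [← List.toFinset_card_of_nodup hn, hu, card_univ, Fintype.card_fin]
  let p : Fin N → Fin N := fun i => lst.get (i.cast hlen.symm)
  have hinj : Function.Injective p := fun i j h =>
    Fin.cast_injective _ (List.nodup_iff_injective_get.mp hn h)
  refine ⟨Equiv.ofBijective p (Finite.injective_iff_bijective.mp hinj), ?_⟩
  refine List.ext_get (by simp [hlen]) fun n h1 h2 => ?_
  simp [p]

/-- Every zero-sum family in the Euclidean unit ball has an order with prefix norms
at most `√(finalBd d)`. -/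
theorem exists_perm {d N : ℕ} (v : Fin N → EuclideanSpace ℝ (Fin d)) (hv : ∀ a, ‖v a‖ ≤ 1)
    (hzero : ∑ a, v a = 0) :
    ∃ π : Equiv.Perm (Fin N), ∀ k : ℕ,
      ‖∑ i ∈ univ.filter (fun i : Fin N => (i : ℕ) < k), v (π i)‖ ≤
        Real.sqrt (finalBd d) := by
  let T : EuclideanSpace ℝ (Fin d) →ₗ[ℝ] EuclideanSpace ℝ (Fin d) :=
    ∑ a, ((innerSL ℝ (v a)).toLinearMap).smulRight (v a)
  have hTapp : ∀ x, T x = ∑ a, ⟪v a, x⟫ • v a := fun x => by simp [T]
  have hT : T.IsSymmetric := fun x y => by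
    simp only [hTapp, sum_inner, inner_sum, real_inner_smul_left, real_inner_smul_right]
    exact sum_congr rfl fun a _ => by rw [real_inner_comm x (v a)]; ring
  set b := hT.eigenvectorBasis finrank_euclideanSpace_fin with hb
  let w : Fin N → Fin d → ℝ := fun a i => ⟪b i, v a⟫
  have hw : ∀ a, ∑ i, w a i ^ 2 ≤ 1 := fun a => by
    have h := b.sum_sq_norm_inner_right (v a)
    simp only [Real.norm_eq_abs, sq_abs] at h
    simp only [w, h]
    exact pow_le_one₀ (norm_nonneg _) (hv a)
  have hw0 : ∀ i, ∑ a, w a i = 0 := fun i => by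
    simp only [w, ← inner_sum, hzero, inner_zero_right]
  have horth : ∀ i k, i ≠ k → ∑ a, w a i * w a k = 0 := fun i k hik => by
    have h1 : ⟪b i, T (b k)⟫ = 0 := by
      rw [hb, hT.apply_eigenvectorBasis, real_inner_smul_right,
        OrthonormalBasis.inner_eq_zero _ hik, mul_zero]
    rw [hTapp, inner_sum] at h1
    refine Eq.trans (sum_congr rfl fun a _ => ?_) h1
    simp only [w, real_inner_smul_right]
    rw [real_inner_comm (b k) (v a)]
    ring
  obtain ⟨lst, hn, hu, hB⟩ := exists_order w hw hw0 horth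
  obtain ⟨π, hπ⟩ := exists_perm_of_list hn hu
  refine ⟨π, fun k => ?_⟩
  set x := ∑ i ∈ univ.filter (fun i : Fin N => (i : ℕ) < k), v (π i) with hx
  refine Real.le_sqrt_of_sq_le ?_
  rw [← b.sum_sq_norm_inner_right x]
  refine le_trans (le_of_eq (sum_congr rfl fun i _ => ?_)) (hB k)
  rw [Pi.zero_apply, zero_add, ← hπ, List.map_take, List.map_ofFn, List.sum_take_ofFn,
    Real.norm_eq_abs, sq_abs, hx, inner_sum]
  rfl

end Vale.Agent.P262.Sharp
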