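import Mathlib

/-!
Linear algebra for deterministic rounding: kernel vectors, reduction to few fractional entries,
and a direction along which a quadratic form is small.
-/

open Finset

namespace Vale.Agent.P262.Sharp

/-- A nonzero vector supported on `s` annihilated by fewer than `s.card` linear rows. -/
theorem exists_kernel {α J : Type*} [Fintype α] [DecidableEq α] [Fintype J] (s : Finset α)
    (r : J → α → ℝ) (h : Fintype.card J < s.card) :
    ∃ y : α → ℝ, (∃ a, y a ≠ 0) ∧ (∀ a ∉ s, y a = 0) ∧ ∀ j, ∑ a, r j a * y a = 0 := by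
  let f : (↥s → ℝ) →ₗ[ℝ] (J → ℝ) :=
    { toFun := fun z j => ∑ a : ↥s, r j a * z a
      map_add' := fun z z' => by funext j; simp [mul_add, sum_add_distrib]
      map_smul' := fun c z => by funext j; simp [mul_sum, mul_left_comm] }
  have hne : LinearMap.ker f ≠ ⊥ := by
    intro hbot
    have hi := LinearMap.finrank_le_finrank_of_injective (LinearMap.ker_eq_bot.mp hbot)
    simp [Module.finrank_fintype_fun_eq_card] at hi
    omega
  obtain ⟨z, hz, hz0⟩ := Submodule.exists_mem_ne_zero_of_ne_bot hne
  obtain ⟨a, ha⟩ := Function.ne_iff.mp hz0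
  refine ⟨fun b => if hb : b ∈ s then z ⟨b, hb⟩ else 0, ⟨a.1, by simpa using ha⟩,
    fun b hb => by simp [hb], fun j => ?_⟩
  have hj := congrFun (LinearMap.mem_ker.mp hz) j
  simp only [f, LinearMap.coe_mk, AddHom.coe_mk, Pi.zero_apply] at hj
  rw [← sum_subset (subset_univ s) (fun b _ hb => by simp [hb]), ← sum_coe_sort]
  rw [← hj]
  exact sum_congr rfl fun b _ => by simp

/-- Entries strictly inside `(-1,1)`. -/
noncomputable def fracSet {α : Type*} [Fintype α] (x : α → ℝ) : Finset α :=
  univ.filter fun a => |x a| < 1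

/-- Moving to a point with few fractional entries without changing the given linear rows. -/
theorem exists_vertex {α J : Type*} [Fintype α] [DecidableEq α] [Fintype J]
    (r : J → α → ℝ) (x : α → ℝ) (hx : ∀ a, |x a| ≤ 1) :
    ∃ x' : α → ℝ, (∀ a, |x' a| ≤ 1) ∧ (∀ j, ∑ a, r j a * x' a = ∑ a, r j a * x a) ∧
      (fracSet x').card ≤ Fintype.card J := by
  induction hn : (fracSet x).card using Nat.strong_induction_on generalizing x with
  | _ n ih =>
    by_cases hle : n ≤ Fintype.card J
    · exact ⟨x, hx, fun _ => rfl, hn ▸ hle⟩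
    obtain ⟨y, ⟨a₀, ha₀⟩, hys, hy⟩ := exists_kernel (fracSet x) r (by omega)
    have hmem : ∀ a, y a ≠ 0 → |x a| < 1 := fun a ha => by
      by_contra hc
      exact ha (hys a (by simp [fracSet, hc]))
    let τ : α → ℝ := fun a => if 0 < y a then (1 - x a) / y a else (-1 - x a) / y a
    have hS : (univ.filter fun a => y a ≠ 0).Nonempty := ⟨a₀, by simp [ha₀]⟩
    obtain ⟨b, hb, hbmin⟩ := exists_min_image _ τ hS
    simp only [mem_filter, mem_univ, true_and] at hb hbmin
    have hτ : ∀ a, y a ≠ 0 → 0 < τ a := by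
      intro a ha
      obtain ⟨h1, h2⟩ := abs_lt.mp (hmem a ha)
      simp only [τ]
      split_ifs with h
      · exact div_pos (by linarith) h
      · exact div_pos_of_neg_of_neg (by linarith) (lt_of_le_of_ne (not_lt.mp h) ha)
    set t := τ b with ht
    have ht0 : 0 < t := hτ b hb
    let x' : α → ℝ := fun a => x a + t * y a
    have hx' : ∀ a, |x' a| ≤ 1 := by
      intro a
      by_cases ha : y a = 0
      · simp [x', ha, hx a]
      obtain ⟨h1, h2⟩ := abs_lt.mp (hmem a ha)
      have hle' := hbmin a ha
      simp only [τ] at hle'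
      simp only [x', abs_le]
      split_ifs at hle' with h
      · rw [le_div_iff₀ h] at hle'
        have : 0 ≤ t * y a := by positivity
        constructor <;> linarith
      · have hn' : y a < 0 := lt_of_le_of_ne (not_lt.mp h) ha
        rw [le_div_iff_of_neg hn'] at hle'
        have : t * y a ≤ 0 := mul_nonpos_of_nonneg_of_nonpos ht0.le hn'.le
        constructor <;> linarith
    have hb' : |x' b| = 1 := by
      simp only [x', ht, τ]
      split_ifs with h
      · rw [div_mul_cancel₀ _ hb]; simp
      · rw [div_mul_cancel₀ _ hb]; simp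
    have hlt : (fracSet x').card < n := by
      rw [← hn]
      refine card_lt_card ((ssubset_iff_of_subset ?_).mpr ⟨b, ?_, ?_⟩)
      · intro a ha
        simp only [fracSet, mem_filter, mem_univ, true_and] at ha ⊢
        by_cases hya : y a = 0
        · simpa [x', hya] using ha
        · exact hmem a hya
      · simp [fracSet, hmem b hb]
      · simp [fracSet, hb']
    obtain ⟨z, hz1, hz2, hz3⟩ := ih _ hlt x' hx' rfl
    refine ⟨z, hz1, fun j => (hz2 j).trans ?_, hz3⟩
    have h0 : ∑ a, r j a * (t * y a) = 0 := by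
      rw [sum_congr rfl fun a _ => mul_left_comm (r j a) t (y a), ← mul_sum, hy j, mul_zero]
    simp only [x', mul_add, sum_add_distrib, h0, add_zero]

/-- A kernel direction along which a positive quadratic form is small compared with a dominating
diagonal form. -/
theorem exists_direction {β J n : Type*} [Fintype β] [Fintype J] [Fintype n] [Nonempty β]
    (G : β → ℝ) (hG : ∀ a, 0 < G a) (w : n → ℝ) (hw : ∀ i, 0 ≤ w i) (c : n → β → ℝ)
    (hGc : ∀ a, ∑ i, w i * c i a ^ 2 ≤ G a) (r : J → β → ℝ)
    (hJ : Fintype.card β + 2 * Fintype.card J ≤ 2 * Fintype.card β) :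
    ∃ y : β → ℝ, (∑ a, y a ^ 2 = 1) ∧ (∀ j, ∑ a, r j a * y a = 0) ∧
      ∑ i, w i * (∑ a, c i a * y a) ^ 2 ≤ 2 * ∑ a, G a * y a ^ 2 := by
  have hs : ∀ a, 0 < Real.sqrt (G a) := fun a => Real.sqrt_pos.mpr (hG a)
  let f : EuclideanSpace ℝ β →ₗ[ℝ] (J → ℝ) :=
    { toFun := fun z j => ∑ a, r j a / Real.sqrt (G a) * z a
      map_add' := fun z z' => by funext j; simp [mul_add, sum_add_distrib]
      map_smul' := fun t z => by funext j; simp [mul_sum, mul_left_comm] }
  set S := LinearMap.ker f with hS
  have hrk := LinearMap.finrank_range_add_finrank_ker f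
  rw [finrank_euclideanSpace] at hrk
  have hle : Module.finrank ℝ (LinearMap.range f) ≤ Fintype.card J := by
    refine le_trans (Submodule.finrank_le _) ?_
    simp [Module.finrank_fintype_fun_eq_card]
  set m := Module.finrank ℝ S with hm
  have hm2 : Fintype.card β ≤ 2 * m := by omega
  have hm0 : 0 < m := by
    have := Fintype.card_pos (α := β)
    omega
  let b := stdOrthonormalBasis ℝ S
  let e : Fin m → EuclideanSpace ℝ β := fun k => (b k : EuclideanSpace ℝ β)
  have he : Orthonormal ℝ e := b.orthonormal.comp_linearIsometry S.subtypeₗᵢ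
  let y : Fin m → β → ℝ := fun k a => e k a / Real.sqrt (G a)
  have hker : ∀ k j, ∑ a, r j a * y k a = 0 := by
    intro k j
    have h := congrFun (LinearMap.mem_ker.mp (b k).2) j
    simp only [f, LinearMap.coe_mk, AddHom.coe_mk, Pi.zero_apply] at h
    rw [← h]
    exact sum_congr rfl fun a _ => by simp only [y, e]; ring
  have hnorm : ∀ k, ∑ a, G a * y k a ^ 2 = 1 := by
    intro k
    have h := he.1 k
    rw [EuclideanSpace.norm_eq, Real.sqrt_eq_one] at h
    rw [← h]
    refine sum_congr rfl fun a _ => ?_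
    simp only [y, div_pow, Real.sq_sqrt (hG a).le, Real.norm_eq_abs, sq_abs]
    field_simp [(hG a).ne']
  have hsum : ∑ k, ∑ i, w i * (∑ a, c i a * y k a) ^ 2 ≤ Fintype.card β := by
    rw [sum_comm]
    calc ∑ i, ∑ k, w i * (∑ a, c i a * y k a) ^ 2
        ≤ ∑ i, w i * ∑ a, c i a ^ 2 / G a := by
          refine sum_le_sum fun i _ => ?_
          rw [← mul_sum]
          refine mul_le_mul_of_nonneg_left ?_ (hw i)
          let v : EuclideanSpace ℝ β := WithLp.toLp 2 fun a => c i a / Real.sqrt (G a)
          have h := he.sum_inner_products_le (x := v) (s := univ)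
          have hv : ‖v‖ ^ 2 = ∑ a, c i a ^ 2 / G a := by
            rw [EuclideanSpace.norm_eq, Real.sq_sqrt (by positivity)]
            exact sum_congr rfl fun a _ => by
              simp [v, div_pow, Real.sq_sqrt (hG a).le]
          rw [← hv]
          refine le_trans (le_of_eq (sum_congr rfl fun k _ => ?_)) h
          rw [Real.norm_eq_abs, sq_abs]
          congr 1
          simp [v, y, PiLp.inner_apply, div_eq_mul_inv, mul_assoc, mul_comm, mul_left_comm]
      _ = ∑ a, (∑ i, w i * c i a ^ 2) / G a := by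
          simp only [mul_sum, sum_div, mul_div_assoc]
          exact sum_comm
      _ ≤ ∑ _a : β, (1 : ℝ) := sum_le_sum fun a _ => by
          rw [div_le_one (hG a)]; exact hGc a
      _ = Fintype.card β := by simp
  have : Nonempty (Fin m) := ⟨⟨0, hm0⟩⟩
  obtain ⟨k, -, hk⟩ := exists_le_of_sum_le (s := univ) univ_nonempty
    (f := fun k => ∑ i, w i * (∑ a, c i a * y k a) ^ 2) (g := fun _ : Fin m => (2 : ℝ)) (by
      refine hsum.trans ?_
      simp only [sum_const, card_univ, Fintype.card_fin, nsmul_eq_mul]
      have h2 : (Fintype.card β : ℝ) ≤ 2 * (m : ℝ) := by exact_mod_cast hm2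
      linarith)
  set q := ∑ a, y k a ^ 2 with hq
  have hq0 : 0 < q := by
    by_contra hc
    have h0 : ∀ a, y k a = 0 := fun a => by
      have := (sum_eq_zero_iff_of_nonneg fun a _ => sq_nonneg (y k a)).mp
        (le_antisymm (not_lt.mp hc) (sum_nonneg fun a _ => sq_nonneg _)) a (mem_univ a)
      simpa using this
    simpa [h0] using hnorm k
  refine ⟨fun a => y k a / Real.sqrt q, ?_, fun j => ?_, ?_⟩
  · simp only [div_pow, Real.sq_sqrt hq0.le, ← sum_div, ← hq, div_self hq0.ne']
  · simp only [← mul_div_assoc, ← sum_div, hker k j, zero_div]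
  · simp only [← mul_div_assoc, ← sum_div, div_pow, Real.sq_sqrt hq0.le, hnorm k, mul_one]
    gcongr

end Vale.Agent.P262.Sharp
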