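import Vale.Agent.P262.Sharp.Kernel

/-!
Rounding with a small weighted quadratic error, a signed linear error and one balanced row.
-/

open Finset

namespace Vale.Agent.P262.Sharp

variable {α n : Type*} [Fintype α] [DecidableEq α] [Fintype n]

/-- The mass of row `i` on the fractional entries. -/
noncomputable def fracMass (u : n → α → ℝ) (x : α → ℝ) (i : n) : ℝ :=
  ∑ a ∈ fracSet x, u i a ^ 2

/-- The energy of row `i`, frozen at `M i` while the row is a constraint. -/
noncomputable def energy (u : n → α → ℝ) (M : n → ℝ) (x : α → ℝ) (i : n) : ℝ :=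
  if M i < fracMass u x i then M i else ∑ a ∈ fracSet x, (1 - x a ^ 2) * u i a ^ 2

/-- The movement of row `i` since the start. -/
def drift (u : n → α → ℝ) (x₀ x : α → ℝ) (i : n) : ℝ := ∑ a, (x a - x₀ a) * u i a

/-- The quadratic potential. -/
noncomputable def quadPot (u : n → α → ℝ) (ω M : n → ℝ) (η : ℝ) (x₀ x : α → ℝ) : ℝ :=
  (∑ i, ω i * (drift u x₀ x i ^ 2 + 2 * energy u M x i)) + 2 * η * ∑ a, (1 - x a ^ 2)

theorem one_sub_sq_nonneg {t : ℝ} (h : |t| ≤ 1) : 0 ≤ 1 - t ^ 2 :=
  sub_nonneg.mpr ((sq_le_one_iff_abs_le_one _).mpr h)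

omit [DecidableEq α] in
/-- Moving along `y` until an entry reaches the boundary. -/
theorem move_to_boundary (x y : α → ℝ) (hx : ∀ a, |x a| ≤ 1)
    (hys : ∀ a ∉ fracSet x, y a = 0) (hne : ∃ a, y a ≠ 0) :
    ∃ t : ℝ, (∀ a, |x a + t * y a| ≤ 1) ∧ fracSet (fun a => x a + t * y a) ⊂ fracSet x := by
  classical
  obtain ⟨a₀, ha₀⟩ := hne
  have hmem : ∀ a, y a ≠ 0 → |x a| < 1 := fun a ha => by
    by_contra hc
    exact ha (hys a (by simp [fracSet, hc]))
  let τ : α → ℝ := fun a => if 0 < y a then (1 - x a) / y a else (-1 - x a) / y a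
  have hS : (univ.filter fun a => y a ≠ 0).Nonempty := ⟨a₀, by simp [ha₀]⟩
  obtain ⟨b, hb, hbmin⟩ := exists_min_image _ τ hS
  simp only [mem_filter, mem_univ, true_and] at hb hbmin
  have hτ : ∀ a, y a ≠ 0 → 0 < τ a := by
    intro a ha
    obtain ⟨h1, h2⟩ := abs_lt.mp (hmem a ha)
    simp only [τ]
    split_ifs with h
    · exact div_pos (by linarith) h
    · exact div_pos_of_neg_of_neg (by linarith) (lt_of_le_of_ne (not_lt.mp h) ha)
  set t := τ b with ht
  have ht0 : 0 < t := hτ b hb
  have hbox : ∀ a, |x a + t * y a| ≤ 1 := by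
    intro a
    by_cases ha : y a = 0
    · simp [ha, hx a]
    obtain ⟨h1, h2⟩ := abs_lt.mp (hmem a ha)
    have hle' := hbmin a ha
    simp only [τ] at hle'
    rw [abs_le]
    split_ifs at hle' with h
    · rw [le_div_iff₀ h] at hle'
      have : 0 ≤ t * y a := by positivity
      constructor <;> linarith
    · have hn' : y a < 0 := lt_of_le_of_ne (not_lt.mp h) ha
      rw [le_div_iff_of_neg hn'] at hle'
      have : t * y a ≤ 0 := mul_nonpos_of_nonneg_of_nonpos ht0.le hn'.le
      constructor <;> linarith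
  have hb' : |x b + t * y b| = 1 := by
    simp only [ht, τ]
    split_ifs with h
    · rw [div_mul_cancel₀ _ hb]; simp
    · rw [div_mul_cancel₀ _ hb]; simp
  refine ⟨t, hbox, (ssubset_iff_of_subset ?_).mpr ⟨b, ?_, ?_⟩⟩
  · intro a ha
    simp only [fracSet, mem_filter, mem_univ, true_and] at ha ⊢
    by_cases hya : y a = 0
    · simpa [hya] using ha
    · exact hmem a hya
  · simp [fracSet, hmem b hb]
  · simp [fracSet, hb']

/-- One step of the descent. -/
theorem quad_step (u : n → α → ℝ) (ω M : n → ℝ) (η : ℝ) (hη : 0 < η) (c β : α → ℝ)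
    (hu : ∀ a, ∑ i, u i a ^ 2 ≤ 1) (hω : ∀ i, 0 ≤ ω i) (x₀ x : α → ℝ) (hx : ∀ a, |x a| ≤ 1)
    (hin : ∀ i, M i < fracMass u x i → M i = 8 ∧ drift u x₀ x i = 0)
    (hcard : 8 ≤ (fracSet x).card) :
    ∃ x' : α → ℝ, (∀ a, |x' a| ≤ 1) ∧ fracSet x' ⊂ fracSet x ∧
      (∀ a ∉ fracSet x, x' a = x a) ∧
      (∀ i, M i < fracMass u x' i → M i = 8 ∧ drift u x₀ x' i = 0) ∧
      ∑ a, x' a * c a = ∑ a, x a * c a ∧ ∑ a, x' a * β a = ∑ a, x a * β a ∧
      quadPot u ω M η x₀ x' ≤ quadPot u ω M η x₀ x := by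
  classical
  let I := univ.filter fun i => M i < fracMass u x i
  let w : n → ℝ := fun i => if i ∈ I then 0 else ω i
  have hw : ∀ i, 0 ≤ w i := fun i => by
    simp only [w]; split_ifs
    · exact le_refl _
    · exact hω i
  let g : α → ℝ := fun a =>
    (∑ i, w i * (2 * drift u x₀ x i * u i a - 4 * (x a * u i a ^ 2))) - 4 * η * x a
  let r : ↥I ⊕ Fin 3 → ↥(fracSet x) → ℝ := fun j a => match j with
    | Sum.inl i => u i a
    | Sum.inr k => if k = 0 then g a else if k = 1 then c a else β a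
  have hI : 8 * I.card ≤ (fracSet x).card := by
    have h2 : ∑ i ∈ I, (8:ℝ) ≤ ((fracSet x).card : ℝ) := by
      calc ∑ i ∈ I, (8:ℝ) ≤ ∑ i ∈ I, fracMass u x i := sum_le_sum fun i hi => by
            simp only [I, mem_filter, mem_univ, true_and] at hi
            linarith [(hin i hi).1]
        _ ≤ ∑ i, fracMass u x i := sum_le_sum_of_subset_of_nonneg (subset_univ _)
            fun i _ _ => sum_nonneg fun a _ => sq_nonneg _
        _ = ∑ a ∈ fracSet x, ∑ i, u i a ^ 2 := sum_comm
        _ ≤ ∑ a ∈ fracSet x, (1:ℝ) := sum_le_sum fun a _ => hu a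
        _ = _ := by simp
    rw [sum_const, nsmul_eq_mul] at h2
    have h3 : (((8 * I.card : ℕ)) : ℝ) ≤ ((fracSet x).card : ℝ) := by push_cast; linarith
    exact_mod_cast h3
  have : Nonempty ↥(fracSet x) := (card_pos.mp (by omega : 0 < (fracSet x).card)).to_subtype
  obtain ⟨z, hz1, hz2, hz3⟩ := exists_direction
    (fun a : ↥(fracSet x) => (∑ i, w i * u i a ^ 2) + η)
    (fun a => add_pos_of_nonneg_of_pos
      (sum_nonneg fun i _ => mul_nonneg (hw i) (sq_nonneg _)) hη)
    w hw (fun i a => u i a) (fun a => by simp [hη.le]) r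
    (by simp only [Fintype.card_sum, Fintype.card_coe, Fintype.card_fin]; omega)
  let y : α → ℝ := fun a => if ha : a ∈ fracSet x then z ⟨a, ha⟩ else 0
  have hy0 : ∀ a ∉ fracSet x, y a = 0 := fun a ha => by simp [y, ha]
  have hsum : ∀ F : α → ℝ → ℝ, (∀ a, F a 0 = 0) →
      ∑ a, F a (y a) = ∑ a : ↥(fracSet x), F a (z a) := fun F hF => by
    rw [← sum_subset (subset_univ (fracSet x)) (fun a _ ha => by rw [hy0 a ha, hF]),
      ← sum_coe_sort]
    exact sum_congr rfl fun a _ => by simp [y]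
  have hrow : ∀ f : α → ℝ, (∑ a : ↥(fracSet x), f a * z a = 0) → ∑ a, f a * y a = 0 :=
    fun f hf => by rw [hsum (fun a t => f a * t) fun a => mul_zero _]; exact hf
  have hyI : ∀ i ∈ I, ∑ a, u i a * y a = 0 := fun i hi =>
    hrow _ (hz2 (Sum.inl ⟨i, hi⟩))
  have hyg : ∑ a, g a * y a = 0 := hrow _ (by simpa [r] using hz2 (Sum.inr 0))
  have hyc : ∑ a, c a * y a = 0 := hrow _ (by simpa [r] using hz2 (Sum.inr 1))
  have hyb : ∑ a, β a * y a = 0 := hrow _ (by simpa [r] using hz2 (Sum.inr 2))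
  have hne : ∃ a, y a ≠ 0 := by
    by_contra hc
    rw [not_exists] at hc
    have : ∑ a : ↥(fracSet x), z a ^ 2 = 0 := sum_eq_zero fun a _ => by
      have := not_not.mp (hc a)
      simp [y] at this
      simp [this]
    linarith
  obtain ⟨t, hbox, hss⟩ := move_to_boundary x y hx hy0 hne
  set x' : α → ℝ := fun a => x a + t * y a with hx'
  have hdrift : ∀ i, drift u x₀ x' i = drift u x₀ x i + t * ∑ a, u i a * y a := fun i => by
    simp only [drift, hx', mul_sum]
    rw [← sum_add_distrib]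
    exact sum_congr rfl fun a _ => by ring
  have hmassle : ∀ i, fracMass u x' i ≤ fracMass u x i := fun i =>
    sum_le_sum_of_subset_of_nonneg hss.subset fun a _ _ => sq_nonneg _
  refine ⟨x', hbox, hss, fun a ha => by simp [hx', hy0 a ha], fun i hi => ?_, ?_, ?_, ?_⟩
  · have hi' : M i < fracMass u x i := hi.trans_le (hmassle i)
    refine ⟨(hin i hi').1, ?_⟩
    rw [hdrift, (hin i hi').2, hyI i (by simp [I, hi']), mul_zero, add_zero]
  · simp only [hx', add_mul, sum_add_distrib, mul_assoc, ← mul_sum]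
    rw [sum_congr rfl fun a _ => mul_comm (y a) (c a), hyc, mul_zero, add_zero]
  · simp only [hx', add_mul, sum_add_distrib, mul_assoc, ← mul_sum]
    rw [sum_congr rfl fun a _ => mul_comm (y a) (β a), hyb, mul_zero, add_zero]
  have hterm : ∀ i, ω i * (drift u x₀ x' i ^ 2 + 2 * energy u M x' i) ≤
      ω i * (drift u x₀ x i ^ 2 + 2 * energy u M x i) +
        w i * (t * (2 * drift u x₀ x i * ∑ a, u i a * y a - 4 * ∑ a, x a * u i a ^ 2 * y a) +
          t ^ 2 * ((∑ a, u i a * y a) ^ 2 - 2 * ∑ a, y a ^ 2 * u i a ^ 2)) := by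
    intro i
    by_cases hi : i ∈ I
    · have hfr : M i < fracMass u x i := by simpa [I] using hi
      simp only [w, if_pos hi, zero_mul, add_zero]
      refine mul_le_mul_of_nonneg_left ?_ (hω i)
      rw [hdrift, hyI i hi, mul_zero, add_zero]
      have he : energy u M x' i ≤ M i := by
        rw [energy]
        split_ifs with h2
        · exact le_refl _
        · refine le_trans (sum_le_sum fun a _ => ?_) (not_lt.mp h2)
          exact mul_le_of_le_one_left (sq_nonneg _) (by linarith [sq_nonneg (x' a)])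
      have he2 : energy u M x i = M i := if_pos hfr
      linarith
    · have hnf : ¬ M i < fracMass u x i := by simpa [I] using hi
      have hnf' : ¬ M i < fracMass u x' i := fun h => hnf (h.trans_le (hmassle i))
      simp only [w, if_neg hi]
      rw [← mul_add]
      refine mul_le_mul_of_nonneg_left ?_ (hω i)
      have he : energy u M x' i ≤ energy u M x i
          - 2 * t * ∑ a, x a * u i a ^ 2 * y a - t ^ 2 * ∑ a, y a ^ 2 * u i a ^ 2 := by
        rw [energy, energy, if_neg hnf', if_neg hnf, mul_sum, mul_sum,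
          ← sum_subset (subset_univ (fracSet x))
            (fun a _ ha => by rw [hy0 a ha, mul_zero, mul_zero]),
          ← sum_subset (subset_univ (fracSet x))
            (fun a _ ha => by rw [hy0 a ha]; simp),
          ← sum_sub_distrib, ← sum_sub_distrib]
        refine le_trans (sum_le_sum_of_subset_of_nonneg hss.subset fun a _ _ => ?_)
          (le_of_eq (sum_congr rfl fun a _ => by simp only [hx']; ring))
        exact mul_nonneg (one_sub_sq_nonneg (hbox a)) (sq_nonneg _)
      rw [hdrift]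
      linarith
  have hsq : ∑ a, (1 - x' a ^ 2) =
      (∑ a, (1 - x a ^ 2)) - t * (2 * ∑ a, x a * y a) - t ^ 2 * ∑ a, y a ^ 2 := by
    simp only [mul_sum, ← sum_sub_distrib]
    exact sum_congr rfl fun a _ => by simp only [hx']; ring
  have hfirst : (∑ i, w i * (2 * drift u x₀ x i * ∑ a, u i a * y a
      - 4 * ∑ a, x a * u i a ^ 2 * y a)) - 4 * η * ∑ a, x a * y a = 0 := by
    refine Eq.trans ?_ hyg
    simp only [g, sub_mul, sum_mul, mul_sub, mul_sum, sum_sub_distrib]
    rw [sum_comm (γ := n)]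
    congr 1
    · congr 1
      · exact sum_congr rfl fun a _ => sum_congr rfl fun i _ => by ring
      · rw [sum_comm]
        exact sum_congr rfl fun a _ => sum_congr rfl fun i _ => by ring
    · exact sum_congr rfl fun a _ => by ring
  have hsecond : (∑ i, w i * ((∑ a, u i a * y a) ^ 2 - 2 * ∑ a, y a ^ 2 * u i a ^ 2))
      - 2 * η * ∑ a, y a ^ 2 ≤ 0 := by
    have e1 : ∀ i, ∑ a, u i a * y a = ∑ a : ↥(fracSet x), u i a * z a :=
      fun i => hsum (fun a s => u i a * s) fun a => mul_zero _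
    have e2 : ∀ i, ∑ a, y a ^ 2 * u i a ^ 2 = ∑ a : ↥(fracSet x), z a ^ 2 * u i a ^ 2 :=
      fun i => hsum (fun a s => s ^ 2 * u i a ^ 2) fun a => by simp
    have e3 : ∑ a, y a ^ 2 = ∑ a : ↥(fracSet x), z a ^ 2 :=
      hsum (fun _ s => s ^ 2) fun a => by simp
    simp only [e1, e2, e3]
    have e4 : ∑ a : ↥(fracSet x), (∑ i, w i * u i a ^ 2) * z a ^ 2 =
        ∑ i, w i * ∑ a : ↥(fracSet x), z a ^ 2 * u i a ^ 2 := by
      simp only [sum_mul, mul_sum]
      rw [sum_comm]
      exact sum_congr rfl fun i _ => sum_congr rfl fun a _ => by ring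
    simp only [add_mul, sum_add_distrib, ← mul_sum] at hz3
    rw [e4] at hz3
    simp only [mul_sub, sum_sub_distrib, mul_left_comm _ (2:ℝ), ← mul_sum]
    linarith
  have hall := sum_le_sum (s := univ) fun i _ => hterm i
  simp only [mul_add, sum_add_distrib, mul_left_comm (w _) t, mul_left_comm (w _) (t ^ 2),
    ← mul_sum] at hall
  have ht2 := mul_le_mul_of_nonneg_left hsecond (sq_nonneg t)
  rw [mul_zero] at ht2
  have ht1 := congrArg (fun s => t * s) hfirst
  simp only [mul_zero] at ht1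
  simp only [quadPot, mul_add, sum_add_distrib]
  rw [hsq]
  linarith

/-- The descent, run until fewer than eight entries are fractional. -/
theorem quad_descent (u : n → α → ℝ) (ω M : n → ℝ) (η : ℝ) (hη : 0 < η) (c β : α → ℝ)
    (hu : ∀ a, ∑ i, u i a ^ 2 ≤ 1) (hω : ∀ i, 0 ≤ ω i) (x₀ : α → ℝ) :
    ∀ x : α → ℝ, (∀ a, |x a| ≤ 1) →
      (∀ i, M i < fracMass u x i → M i = 8 ∧ drift u x₀ x i = 0) →
      ∃ x' : α → ℝ, (∀ a, |x' a| ≤ 1) ∧ (fracSet x').card < 8 ∧
        (∀ a ∉ fracSet x, x' a = x a) ∧ (∀ i, M i < fracMass u x' i → M i = 8) ∧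
        ∑ a, x' a * c a = ∑ a, x a * c a ∧ ∑ a, x' a * β a = ∑ a, x a * β a ∧
        quadPot u ω M η x₀ x' ≤ quadPot u ω M η x₀ x := by
  intro x
  induction hn : (fracSet x).card using Nat.strong_induction_on generalizing x with
  | _ m ih =>
    intro hx hin
    by_cases hlt : (fracSet x).card < 8
    · exact ⟨x, hx, hlt, fun _ _ => rfl, fun i hi => (hin i hi).1, rfl, rfl, le_refl _⟩
    obtain ⟨y, h1, h2, h3, h4, h5, h6, h7⟩ :=
      quad_step u ω M η hη c β hu hω x₀ x hx hin (not_lt.mp hlt)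
    obtain ⟨z, g1, g2, g3, g4, g5, g6, g7⟩ := ih _ (hn ▸ card_lt_card h2) y rfl h1 h4
    exact ⟨z, g1, g2, fun a ha => (g3 a fun hc => ha (h2.subset hc)).trans (h3 a ha), g4,
      g5.trans h5, g6.trans h6, g7.trans h7⟩

/-- Signs with small weighted quadratic error, nonpositive error in the row `β`, and small error
in the row `c`. -/
theorem exists_round (u : n → α → ℝ) (ω M : n → ℝ) (c β : α → ℝ) (x : α → ℝ)
    (hx : ∀ a, |x a| ≤ 1) (hu : ∀ a, ∑ i, u i a ^ 2 ≤ 1) (hω : ∀ i, 0 < ω i)
    (hM : ∀ i, 0 ≤ M i) (hMu : ∀ i, M i = 8 ∨ ∑ a, u i a ^ 2 ≤ M i) {cm : ℝ}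
    (hc : ∀ a, |c a| ≤ cm) (hcm : 0 ≤ cm) :
    ∃ ε : α → ℝ, (∀ a, ε a = 1 ∨ ε a = -1) ∧ (∀ a, |x a| = 1 → ε a = x a) ∧
      ∑ i, ω i * (∑ a, (ε a - x a) * u i a) ^ 2 ≤ 64 * ∑ i, ω i * M i ∧
      ∑ a, (ε a - x a) * β a ≤ 0 ∧ |∑ a, (ε a - x a) * c a| ≤ 16 * cm := by
  classical
  set W := ∑ i, ω i * M i with hW
  have hW0 : 0 ≤ W := sum_nonneg fun i _ => mul_nonneg (hω i).le (hM i)
  set N : ℝ := (Fintype.card α : ℝ) with hN
  have hN0 : 0 ≤ N := Nat.cast_nonneg _
  let η : ℝ := if 0 < W then W / (N + 1) else 1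
  have hη : 0 < η := by simp only [η]; split_ifs with h <;> positivity
  have hin : ∀ i, M i < fracMass u x i → M i = 8 ∧ drift u x x i = 0 := fun i hi =>
    ⟨(hMu i).resolve_right fun hle => absurd hi (not_lt.mpr
      ((sum_le_sum_of_subset_of_nonneg (subset_univ _) fun a _ _ => sq_nonneg _).trans hle)),
      by simp [drift]⟩
  obtain ⟨x', hx', hcard, hfix, hM8, hcc, hbb, hpot⟩ :=
    quad_descent u ω M η hη c β hu (fun i => (hω i).le) x x hx hin
  let ε : α → ℝ := fun a =>
    if a ∈ fracSet x' then (if 0 ≤ β a then -1 else 1) else x' a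
  have hone : ∀ a, ε a = 1 ∨ ε a = -1 := fun a => by
    simp only [ε]
    split_ifs with h1 h2
    · exact Or.inr rfl
    · exact Or.inl rfl
    · simp only [fracSet, mem_filter, mem_univ, true_and, not_lt] at h1
      exact eq_or_eq_neg_of_abs_eq (le_antisymm (hx' a) h1) |>.imp id id
  have hout : ∀ a ∉ fracSet x', ε a - x' a = 0 := fun a ha => by simp [ε, ha]
  have hdelta : ∀ f : α → ℝ,
      ∑ a, (ε a - x' a) * f a = ∑ a ∈ fracSet x', (ε a - x' a) * f a :=
    fun f => (sum_subset (subset_univ _) fun a _ ha => by rw [hout a ha, zero_mul]).symm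
  have hε2 : ∀ a, |ε a - x' a| ≤ 2 := fun a => by
    obtain ⟨h1, h2⟩ := abs_le.mp (hx' a)
    rcases hone a with h | h <;> (rw [h, abs_le]; constructor <;> linarith)
  refine ⟨ε, hone, fun a ha => ?_, ?_, ?_, ?_⟩
  · have hnf : a ∉ fracSet x := by simp [fracSet, ha]
    have hnf' : a ∉ fracSet x' := by simp [fracSet, hfix a hnf, ha]
    simp [ε, hnf', hfix a hnf]
  · rcases hW0.eq_or_lt with hWz | hWpos
    · refine le_trans (le_of_eq (sum_eq_zero fun i _ => ?_)) (by positivity)
      have hMi : M i = 0 := by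
        have h := (sum_eq_zero_iff_of_nonneg fun i _ => mul_nonneg (hω i).le (hM i)).mp hWz.symm
          i (mem_univ i)
        exact (mul_eq_zero.mp h).resolve_left (hω i).ne'
      have hu0 : ∀ a, u i a = 0 := fun a => by
        have h := (hMu i).resolve_left (by rw [hMi]; norm_num)
        rw [hMi] at h
        have h2 := single_le_sum (f := fun a => u i a ^ 2) (fun b _ => sq_nonneg _) (mem_univ a)
        exact sq_eq_zero_iff.mp (le_antisymm (h2.trans h) (sq_nonneg _))
      simp [hu0]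
    have hstart : quadPot u ω M η x x ≤ 4 * W := by
      have h1 : ∀ i, energy u M x i ≤ M i := fun i => by
        rw [energy]
        split_ifs with h2
        · exact le_refl _
        · refine le_trans (sum_le_sum fun a _ => ?_) (not_lt.mp h2)
          exact mul_le_of_le_one_left (sq_nonneg _) (by linarith [sq_nonneg (x a)])
      have h2 : ∑ a, (1 - x a ^ 2) ≤ N := by
        refine (sum_le_sum fun a _ => (sub_le_self (1:ℝ) (sq_nonneg (x a)))).trans ?_
        simp [hN]
      have h3 : η * N ≤ W := by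
        simp only [η, if_pos hWpos]
        rw [div_mul_eq_mul_div, div_le_iff₀ (by positivity)]
        linarith
      have h4 : ∑ i, ω i * (drift u x x i ^ 2 + 2 * energy u M x i) ≤ 2 * W := by
        rw [hW, mul_sum]
        refine sum_le_sum fun i _ => ?_
        have := mul_le_mul_of_nonneg_left (h1 i) (hω i).le
        simp [drift]
        linarith
      have h5 := mul_le_mul_of_nonneg_left h2 hη.le
      rw [quadPot]
      linarith
    have hend : ∀ i, fracMass u x' i ≤ M i := fun i => by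
      by_contra hc'
      have h8 := hM8 i (not_le.mp hc')
      have h1 : fracMass u x' i ≤ ((fracSet x').card : ℝ) := by
        refine (sum_le_card_nsmul _ _ (1:ℝ) fun a _ => ?_).trans (by simp)
        exact (single_le_sum (f := fun i => u i a ^ 2) (fun j _ => sq_nonneg _)
          (mem_univ i)).trans (hu a)
      have h2 : ((fracSet x').card : ℝ) ≤ 8 := by exact_mod_cast hcard.le
      linarith [not_le.mp hc']
    have hdrift : ∑ i, ω i * drift u x x' i ^ 2 ≤ 4 * W := by
      refine le_trans ?_ (hpot.trans hstart)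
      refine le_trans ?_ (le_add_of_nonneg_right (mul_nonneg (by linarith)
        (sum_nonneg fun a _ => one_sub_sq_nonneg (hx' a))))
      refine sum_le_sum fun i _ => mul_le_mul_of_nonneg_left (le_add_of_nonneg_right
        (mul_nonneg zero_le_two ?_)) (hω i).le
      rw [energy]; split_ifs
      · exact hM i
      · exact sum_nonneg fun a _ => mul_nonneg (one_sub_sq_nonneg (hx' a)) (sq_nonneg _)
    have hrem : ∀ i, (∑ a, (ε a - x' a) * u i a) ^ 2 ≤ 28 * M i := fun i => by
      rw [hdelta]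
      refine (sum_mul_sq_le_sq_mul_sq _ _ _).trans ?_
      have hc7 : ((fracSet x').card : ℝ) ≤ 7 := by exact_mod_cast Nat.lt_succ_iff.mp hcard
      refine le_trans (mul_le_mul (b := 28) ?_ (hend i)
        (sum_nonneg fun a _ => sq_nonneg _) (by norm_num)) (le_refl _)
      refine (sum_le_card_nsmul _ _ (4:ℝ) fun a _ => ?_).trans (by rw [nsmul_eq_mul]; linarith)
      have h := pow_le_pow_left₀ (abs_nonneg _) (hε2 a) 2
      rw [sq_abs] at h
      linarith
    calc ∑ i, ω i * (∑ a, (ε a - x a) * u i a) ^ 2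
        ≤ ∑ i, (2 * (ω i * drift u x x' i ^ 2) + 56 * (ω i * M i)) := by
          refine sum_le_sum fun i _ => ?_
          have e : ∑ a, (ε a - x a) * u i a =
              (∑ a, (ε a - x' a) * u i a) + drift u x x' i := by
            rw [drift, ← sum_add_distrib]; exact sum_congr rfl fun a _ => by ring
          have h2 := (add_sq_le (a := ∑ a, (ε a - x' a) * u i a) (b := drift u x x' i))
          rw [← e] at h2
          have h3 := mul_le_mul_of_nonneg_left h2 (hω i).le
          have h4 := mul_le_mul_of_nonneg_left (hrem i) (hω i).le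
          linarith
      _ = 2 * ∑ i, ω i * drift u x x' i ^ 2 + 56 * W := by
          rw [sum_add_distrib, ← mul_sum, ← mul_sum]
      _ ≤ 64 * W := by linarith
  · have e : ∑ a, (ε a - x a) * β a =
        (∑ a, (ε a - x' a) * β a) + (∑ a, x' a * β a - ∑ a, x a * β a) := by
      rw [← sum_sub_distrib, ← sum_add_distrib]; exact sum_congr rfl fun a _ => by ring
    rw [e, hbb, sub_self, add_zero, hdelta]
    refine sum_nonpos fun a ha => ?_
    obtain ⟨h1, h2⟩ := abs_le.mp (hx' a)
    simp only [ε, if_pos ha]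
    split_ifs with hb
    · exact mul_nonpos_of_nonpos_of_nonneg (by linarith) hb
    · exact mul_nonpos_of_nonneg_of_nonpos (by linarith) (not_le.mp hb).le
  · have e : ∑ a, (ε a - x a) * c a =
        (∑ a, (ε a - x' a) * c a) + (∑ a, x' a * c a - ∑ a, x a * c a) := by
      rw [← sum_sub_distrib, ← sum_add_distrib]; exact sum_congr rfl fun a _ => by ring
    rw [e, hcc, sub_self, add_zero, hdelta]
    refine (abs_sum_le_sum_abs _ _).trans ((sum_le_card_nsmul _ _ (2 * cm) fun a _ => ?_).trans ?_)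
    · rw [abs_mul]; exact mul_le_mul (hε2 a) (hc a) (abs_nonneg _) zero_le_two
    · rw [nsmul_eq_mul]
      have : ((fracSet x').card : ℝ) ≤ 8 := by exact_mod_cast hcard.le
      have := mul_le_mul_of_nonneg_right this (show 0 ≤ 2 * cm by linarith)
      linarith

end Vale.Agent.P262.Sharp
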