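import Vale.Agent.P262.Sharp.Round

/-!
Thresholds, the coordinate classes of a level, and the sums attached to them.
-/

open Finset

namespace Vale.Agent.P262.Sharp

variable {d : ℕ}

/-- A crude bound for any endpoint in one coordinate. -/
noncomputable def rho (d : ℕ) : ℝ := 1000000 * ((d : ℝ) + 1) ^ 2

/-- Growth rate of the relative second-moment error. -/
noncomputable def cerr (d : ℕ) : ℝ := 10 * rho d

/-- The threshold above which second moments are controlled. -/
noncomputable def lowThr (d : ℕ) : ℝ := 8 * cerr d * ((d : ℝ) + 1) ^ 2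

/-- The threshold above which a coordinate is absorbed. -/
noncomputable def richThr (d : ℕ) : ℝ := 128 * rho d ^ 2 * lowThr d * ((d : ℝ) + 1) ^ 3

/-- The largest value of the potential in one coordinate. -/
noncomputable def capLog (d : ℕ) : ℝ := Real.log (1 + 2 * richThr d)

/-- A bound for the harmonic numbers up to `d`. -/
noncomputable def harm (d : ℕ) : ℝ := 1 + Real.log ((d : ℝ) + 1)

/-- The allowance of one absorbed coordinate. -/
noncomputable def allow (d : ℕ) : ℝ := 300 * harm d

/-- The total budget. -/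
noncomputable def totalBud (d : ℕ) : ℝ := (d : ℝ) * (340000 * capLog d + allow d)

/-- The nominal mass at level `l`. -/
noncomputable def lam (Lam : Fin d → ℝ) (l : ℕ) (i : Fin d) : ℝ := Lam i / 2 ^ l

/-- Coordinates with controlled second moments. -/
noncomputable def solid (Lam : Fin d → ℝ) (l : ℕ) : Finset (Fin d) :=
  univ.filter fun i => lowThr d ≤ lam Lam l i

/-- Coordinates which are absorbed. -/
noncomputable def rich (Lam : Fin d → ℝ) (l : ℕ) : Finset (Fin d) :=
  univ.filter fun i => richThr d ≤ lam Lam l i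

/-- Coordinates charged to the potential. -/
noncomputable def loose (Lam : Fin d → ℝ) (l : ℕ) : Finset (Fin d) :=
  univ.filter fun i => lam Lam l i < richThr d

/-- The inverse masses of the controlled coordinates. -/
noncomputable def invSum (Lam : Fin d → ℝ) (l : ℕ) : ℝ := ∑ i ∈ solid Lam l, 2 ^ l / Lam i

/-- The relative second-moment error allowed at level `l`. -/
noncomputable def relErr (Lam : Fin d → ℝ) (l : ℕ) : ℝ :=
  cerr d * ∑ k ∈ range l, invSum Lam k

/-- The effect of one absorbing shift on the loose coordinates. -/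
noncomputable def leakStep (Lam : Fin d → ℝ) (l : ℕ) : ℝ :=
  2 * rho d * Real.sqrt (((d : ℝ) + 1) * lowThr d) * ∑ i ∈ rich Lam l, Real.sqrt (2 ^ l / Lam i)

/-- The accumulated effect of the shifts. -/
noncomputable def leak (Lam : Fin d → ℝ) (l : ℕ) : ℝ := ∑ k ∈ range l, leakStep Lam k

theorem one_le_dim (d : ℕ) : (1 : ℝ) ≤ (d : ℝ) + 1 := by
  linarith [(Nat.cast_nonneg d : (0:ℝ) ≤ d)]

theorem rho_ge (d : ℕ) : 1000000 * ((d : ℝ) + 1) ^ 2 ≤ rho d ∧ 1000000 ≤ rho d := by
  have := one_le_pow₀ (n := 2) (one_le_dim d)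
  rw [rho]
  constructor <;> linarith

theorem rho_pos (d : ℕ) : 0 < rho d := by rw [rho]; positivity

theorem cerr_pos (d : ℕ) : 0 < cerr d := by rw [cerr, rho]; positivity

theorem lowThr_pos (d : ℕ) : 0 < lowThr d := by rw [lowThr, cerr, rho]; positivity

theorem richThr_pos (d : ℕ) : 0 < richThr d := by
  rw [richThr, lowThr, cerr, rho]; positivity

theorem lowThr_le_richThr (d : ℕ) : lowThr d ≤ richThr d := by
  have h1 : 1 ≤ rho d ^ 2 := one_le_pow₀ (le_trans (by norm_num) (rho_ge d).2)
  have h3 : 1 ≤ ((d : ℝ) + 1) ^ 3 := one_le_pow₀ (one_le_dim d)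
  have h2 : 1 ≤ 128 * rho d ^ 2 * ((d : ℝ) + 1) ^ 3 :=
    one_le_mul_of_one_le_of_one_le (by linarith) h3
  calc lowThr d ≤ lowThr d * (128 * rho d ^ 2 * ((d : ℝ) + 1) ^ 3) :=
        le_mul_of_one_le_right (lowThr_pos d).le h2
    _ = _ := by rw [richThr]; ring

theorem one_le_harm (d : ℕ) : 1 ≤ harm d :=
  le_add_of_nonneg_right (Real.log_nonneg (one_le_dim d))

theorem allow_pos (d : ℕ) : 0 < allow d := by
  have := one_le_harm d
  rw [allow]; positivity

theorem capLog_nonneg (d : ℕ) : 0 ≤ capLog d :=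
  Real.log_nonneg (by linarith [richThr_pos d])

theorem totalBud_nonneg (d : ℕ) : 0 ≤ totalBud d := by
  have := capLog_nonneg d
  have := allow_pos d
  rw [totalBud]; positivity

variable (Lam : Fin d → ℝ) (hLam : ∀ i, 0 ≤ Lam i)

theorem mem_solid {l : ℕ} {i : Fin d} : i ∈ solid Lam l ↔ lowThr d ≤ Lam i / 2 ^ l :=
  ⟨fun h => (mem_filter.mp h).2, fun h => mem_filter.mpr ⟨mem_univ _, h⟩⟩

theorem mem_rich {l : ℕ} {i : Fin d} : i ∈ rich Lam l ↔ richThr d ≤ Lam i / 2 ^ l :=
  ⟨fun h => (mem_filter.mp h).2, fun h => mem_filter.mpr ⟨mem_univ _, h⟩⟩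

theorem mem_loose {l : ℕ} {i : Fin d} : i ∈ loose Lam l ↔ i ∉ rich Lam l :=
  ⟨fun h hr => absurd ((mem_rich Lam).mp hr) (not_le.mpr (mem_filter.mp h).2),
    fun h => mem_filter.mpr ⟨mem_univ _, not_le.mp fun hr => h ((mem_rich Lam).mpr hr)⟩⟩

theorem rich_subset_solid (l : ℕ) : rich Lam l ⊆ solid Lam l := fun _ hi =>
  (mem_solid Lam).mpr ((lowThr_le_richThr d).trans ((mem_rich Lam).mp hi))

theorem solid_pos {l : ℕ} {i : Fin d} (hi : i ∈ solid Lam l) : 0 < lam Lam l i :=
  lt_of_lt_of_le (lowThr_pos d) ((mem_solid Lam).mp hi)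

theorem Lam_pos_of_solid {l : ℕ} {i : Fin d} (hi : i ∈ solid Lam l) : 0 < Lam i :=
  (div_pos_iff_of_pos_right (by positivity)).mp (solid_pos Lam hi)

theorem lam_succ (l : ℕ) (i : Fin d) : lam Lam (l+1) i = lam Lam l i / 2 := by
  simp only [lam, pow_succ, div_div]

include hLam in
theorem lam_antitone {l l' : ℕ} (h : l ≤ l') (i : Fin d) : lam Lam l' i ≤ lam Lam l i :=
  div_le_div_of_nonneg_left (hLam i) (by positivity) (pow_le_pow_right₀ one_le_two h)

include hLam in
theorem solid_antitone {l l' : ℕ} (h : l ≤ l') : solid Lam l' ⊆ solid Lam l := fun i hi =>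
  (mem_solid Lam).mpr (((mem_solid Lam).mp hi).trans (lam_antitone Lam hLam h i))

include hLam in
theorem loose_mono {l l' : ℕ} (h : l ≤ l') : loose Lam l ⊆ loose Lam l' := fun i hi => by
  simp only [loose, mem_filter, mem_univ, true_and] at hi ⊢
  exact (lam_antitone Lam hLam h i).trans_lt hi

/-- A truncated geometric sum. -/
theorem sum_geom_trunc {c s : ℝ} (hc : 0 ≤ c) (hs : 1 < s) :
    ∀ L : ℕ, ∑ l ∈ range L, (if c * s ^ l ≤ 1 then c * s ^ l else 0) ≤ s / (s - 1) := by
  intro L
  induction L with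
  | zero => simpa using div_nonneg (by linarith) (by linarith)
  | succ L ih =>
    by_cases hL : c * s ^ L ≤ 1
    · refine le_trans (sum_le_sum (g := fun l => c * s ^ l) fun l _ => ?_) ?_
      · split_ifs
        · exact le_refl _
        · positivity
      · rw [← mul_sum, geom_sum_eq hs.ne', mul_div_assoc']
        refine div_le_div_of_nonneg_right ?_ (by linarith)
        have h1 := mul_le_mul_of_nonneg_left hL (show 0 ≤ s by linarith)
        rw [pow_succ]
        linarith
    · rw [sum_range_succ, if_neg hL, add_zero]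
      exact ih

include hLam in
theorem invSum_nonneg (l : ℕ) : 0 ≤ invSum Lam l :=
  sum_nonneg fun i _ => div_nonneg (by positivity) (hLam i)

theorem invSum_ge {l : ℕ} {i : Fin d} (hi : i ∈ solid Lam l) :
    1 / lam Lam l i ≤ invSum Lam l := by
  rw [lam, one_div_div]
  exact single_le_sum (f := fun i => (2:ℝ) ^ l / Lam i)
    (fun j hj => div_nonneg (by positivity) (Lam_pos_of_solid Lam hj).le) hi

include hLam in
theorem relErr_nonneg (l : ℕ) : 0 ≤ relErr Lam l :=
  mul_nonneg (cerr_pos d).le (sum_nonneg fun k _ => invSum_nonneg Lam hLam k)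

theorem relErr_succ (l : ℕ) : relErr Lam (l+1) = relErr Lam l + cerr d * invSum Lam l := by
  rw [relErr, relErr, sum_range_succ, mul_add]

include hLam in
theorem invSum_total (L : ℕ) :
    ∑ l ∈ range L, invSum Lam l ≤ (d : ℝ) * (2 / lowThr d) := by
  have e : ∑ l ∈ range L, invSum Lam l =
      ∑ i, ∑ l ∈ range L, (if i ∈ solid Lam l then (2:ℝ) ^ l / Lam i else 0) := by
    rw [sum_comm]
    simp [invSum, sum_ite_mem]
  rw [e]
  refine (sum_le_card_nsmul _ _ (2 / lowThr d) fun i _ => ?_).trans (le_of_eq (by simp))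
  rcases (hLam i).eq_or_lt with h0 | h0
  · have hT := lowThr_pos d
    simp [← h0]
    positivity
  · have hT := lowThr_pos d
    have h := sum_geom_trunc (c := lowThr d / Lam i) (by positivity) one_lt_two L
    rw [show (2:ℝ) / (2 - 1) = 2 by norm_num] at h
    rw [le_div_iff₀ hT, sum_mul]
    refine le_trans (le_of_eq (sum_congr rfl fun l _ => ?_)) h
    have hiff : i ∈ solid Lam l ↔ lowThr d / Lam i * 2 ^ l ≤ 1 := by
      rw [mem_solid, le_div_iff₀ (by positivity), div_mul_eq_mul_div, div_le_one h0]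
    simp only [hiff]
    split_ifs <;> ring

include hLam in
theorem relErr_le (l : ℕ) : relErr Lam l ≤ 1 / (4 * ((d : ℝ) + 1)) := by
  refine (mul_le_mul_of_nonneg_left (invSum_total Lam hLam l) (cerr_pos d).le).trans ?_
  rw [lowThr]
  have hc := cerr_pos d
  have hp := one_le_dim d
  field_simp
  linarith

include hLam in
theorem relErr_add_invSum (l : ℕ) :
    (relErr Lam l + 4 * invSum Lam l) * d ≤ 1 / 2 := by
  have h := relErr_le Lam hLam (l+1)
  rw [relErr_succ] at h
  have h4 : 4 * invSum Lam l ≤ cerr d * invSum Lam l := by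
    refine mul_le_mul_of_nonneg_right ?_ (invSum_nonneg Lam hLam l)
    rw [cerr]; linarith [(rho_ge d).2]
  have h5 : relErr Lam l + 4 * invSum Lam l ≤ 1 / (4 * ((d : ℝ) + 1)) := by linarith
  refine (mul_le_mul_of_nonneg_right h5 (Nat.cast_nonneg _)).trans ?_
  rw [div_mul_eq_mul_div, div_le_iff₀ (by positivity)]
  linarith [(Nat.cast_nonneg d : (0:ℝ) ≤ d)]

include hLam in
theorem shift_small (l : ℕ) : 4 * rho d * invSum Lam l ≤ 1 / 4 := by
  have h := relErr_le Lam hLam (l+1)
  rw [relErr_succ] at h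
  have h0 := relErr_nonneg Lam hLam l
  have h1 : 4 * rho d * invSum Lam l ≤ cerr d * invSum Lam l :=
    mul_le_mul_of_nonneg_right (by rw [cerr]; linarith [rho_pos d]) (invSum_nonneg Lam hLam l)
  have h3 : 1 / (4 * ((d : ℝ) + 1)) ≤ 1/4 :=
    div_le_div_of_nonneg_left zero_le_one (by norm_num) (by linarith [one_le_dim d])
  linarith

theorem leakStep_nonneg (l : ℕ) : 0 ≤ leakStep Lam l :=
  mul_nonneg (mul_nonneg (mul_nonneg zero_le_two (rho_pos d).le) (Real.sqrt_nonneg _))
    (sum_nonneg fun i _ => Real.sqrt_nonneg _)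

theorem leak_nonneg (l : ℕ) : 0 ≤ leak Lam l := sum_nonneg fun k _ => leakStep_nonneg Lam k

theorem leak_succ (l : ℕ) : leak Lam (l+1) = leak Lam l + leakStep Lam l := sum_range_succ _ _

include hLam in
theorem leak_le (L : ℕ) : leak Lam L ≤ 1 := by
  have hR := richThr_pos d
  have hsR := Real.sqrt_pos.mpr hR
  have hs2 : 1.4 ≤ Real.sqrt 2 := Real.le_sqrt_of_sq_le (by norm_num)
  have htot : ∑ l ∈ range L, ∑ i ∈ rich Lam l, Real.sqrt (2 ^ l / Lam i) ≤
      (d : ℝ) * (4 / Real.sqrt (richThr d)) := by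
    have e : ∑ l ∈ range L, ∑ i ∈ rich Lam l, Real.sqrt (2 ^ l / Lam i) =
        ∑ i, ∑ l ∈ range L, (if i ∈ rich Lam l then Real.sqrt (2 ^ l / Lam i) else 0) := by
      rw [sum_comm (s := univ)]
      simp [sum_ite_mem]
    rw [e]
    refine (sum_le_card_nsmul _ _ (4 / Real.sqrt (richThr d)) fun i _ => ?_).trans
      (le_of_eq (by simp))
    rcases (hLam i).eq_or_lt with h0 | h0
    · simp [← h0]
      positivity
    · have h := sum_geom_trunc (c := Real.sqrt (richThr d / Lam i)) (Real.sqrt_nonneg _)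
        (show 1 < Real.sqrt 2 by linarith) L
      have h2 : Real.sqrt 2 / (Real.sqrt 2 - 1) ≤ 4 := by
        rw [div_le_iff₀ (by linarith)]; linarith
      rw [le_div_iff₀ hsR, sum_mul]
      refine le_trans (le_of_eq (sum_congr rfl fun l _ => ?_)) (h.trans h2)
      have e2 : Real.sqrt (richThr d / Lam i) * Real.sqrt 2 ^ l =
          Real.sqrt (2 ^ l / Lam i) * Real.sqrt (richThr d) := by
        rw [← Real.sqrt_eq_iff_mul_self_eq_of_pos (x := 2 ^ l) (y := Real.sqrt 2 ^ l)
          (by positivity) |>.mpr (by rw [← mul_pow, Real.mul_self_sqrt zero_le_two]),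
          ← Real.sqrt_mul (by positivity), ← Real.sqrt_mul (by positivity)]
        congr 1
        ring
      have hiff : i ∈ rich Lam l ↔ Real.sqrt (richThr d / Lam i) * Real.sqrt 2 ^ l ≤ 1 := by
        rw [e2, ← Real.sqrt_mul (by positivity), Real.sqrt_le_one, mem_rich,
          le_div_iff₀ (by positivity), div_mul_eq_mul_div, div_le_one h0, mul_comm]
      simp only [hiff]
      rw [e2]
      split_ifs <;> simp
  refine le_trans (le_of_eq (mul_sum _ _ _).symm) ?_
  refine (mul_le_mul_of_nonneg_left htot (mul_nonneg (mul_nonneg zero_le_two (rho_pos d).le)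
    (Real.sqrt_nonneg _))).trans ?_
  rw [← mul_div_assoc, mul_div_assoc', div_le_one hsR]
  refine Real.le_sqrt_of_sq_le ?_
  rw [mul_pow, mul_pow, mul_pow, mul_pow, Real.sq_sqrt (by
    have := lowThr_pos d; positivity), richThr]
  have h1 : (d:ℝ) ^ 2 ≤ ((d:ℝ) + 1) ^ 2 :=
    pow_le_pow_left₀ (Nat.cast_nonneg _) (by linarith) 2
  have h2 : 0 ≤ rho d ^ 2 * lowThr d * ((d:ℝ) + 1) := by
    have := lowThr_pos d; positivity
  have h3 := mul_le_mul_of_nonneg_left h1 h2
  have h4 : 0 ≤ rho d ^ 2 * lowThr d * ((d:ℝ) + 1) ^ 3 := by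
    have := lowThr_pos d; positivity
  linarith

/-- The rank of a rich coordinate, by nominal mass. -/
noncomputable def rank (S : Finset (Fin d)) (i : Fin d) : ℕ :=
  (S.filter fun k => Lam k ≤ Lam i).card

theorem sum_inv_rank (S : Finset (Fin d)) :
    ∑ i ∈ S, (1 : ℝ) / (rank Lam S i) ≤ harm d := by
  have key : ∀ n, ∀ T : Finset (Fin d), T.card = n →
      ∑ i ∈ T, (1:ℝ) / (rank Lam T i) ≤ (harmonic n : ℝ) := by
    intro n
    induction n with
    | zero => intro T hT; simp [card_eq_zero.mp hT]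
    | succ n ih =>
      intro T hT
      obtain ⟨j, hj, hjmax⟩ := exists_max_image T Lam (card_pos.mp (by omega))
      have hrj : rank Lam T j = n + 1 := by
        rw [rank, filter_true_of_mem hjmax, hT]
      rw [← sum_erase_add T _ hj, harmonic_succ, hrj]
      push_cast
      refine add_le_add (le_trans (sum_le_sum fun i hi => ?_)
        (ih (T.erase j) (by rw [card_erase_of_mem hj, hT]; omega))) (by simp)
      refine one_div_le_one_div_of_le (Nat.cast_pos.mpr (card_pos.mpr ⟨i, ?_⟩)) ?_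
      · exact mem_filter.mpr ⟨hi, le_refl _⟩
      · exact Nat.cast_le.mpr (card_le_card (filter_subset_filter _ (erase_subset _ _)))
  refine (key _ S rfl).trans ((harmonic_le_one_add_log S.card).trans (add_le_add le_rfl ?_))
  rcases Nat.eq_zero_or_pos S.card with h | h
  · simpa [h] using Real.log_nonneg (one_le_dim d)
  · refine Real.log_le_log (Nat.cast_pos.mpr h) ?_
    have : (S.card : ℝ) ≤ d := by exact_mod_cast (card_le_univ S).trans (by simp)
    linarith

end Vale.Agent.P262.Sharp
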