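import Vale.Agent.P262.Sharp.Scales

/-!
The invariant of a block and the splitting step.
-/

open Finset

namespace Vale.Agent.P262.Sharp

variable {ι : Type*} [Fintype ι] [DecidableEq ι] {d : ℕ}

/-- The squared mass of coordinate `i` on the block `V`. -/
noncomputable def mass (v : ι → Fin d → ℝ) (V : Finset ι) (i : Fin d) : ℝ := ∑ a ∈ V, v a i ^ 2

/-- The budget of a block at level `l` for the coordinates loose at level `m`. -/
noncomputable def bud (v : ι → Fin d → ℝ) (Lam : Fin d → ℝ) (l : ℕ) (V : Finset ι) (m : ℕ) : ℝ :=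
  340000 * ∑ i ∈ loose Lam l, (capLog d - Real.log (1 + mass v V i)) +
    allow d * (loose Lam m).card

/-- The invariant of a block `V` placed after the partial sum `P` at level `l`. -/
structure Node (v : ι → Fin d → ℝ) (Lam : Fin d → ℝ) (l : ℕ) (V : Finset ι) (P : Fin d → ℝ) :
    Prop where
  quad : ∀ i ∈ solid Lam l, ∀ k ∈ solid Lam l,
    |(∑ a ∈ V, v a i * v a k) - (if i = k then lam Lam l i else 0)| ≤
      relErr Lam l * Real.sqrt (lam Lam l i * lam Lam l k)
  low : ∀ i, i ∉ solid Lam l → mass v V i ≤ 2 * lowThr d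
  left : ∀ m, l ≤ m →
    ∑ i ∈ loose Lam m, P i ^ 2 ≤ (Real.sqrt (bud v Lam l V m) + leak Lam l) ^ 2
  right : ∀ m, l ≤ m →
    ∑ i ∈ loose Lam m, (P i + ∑ a ∈ V, v a i) ^ 2 ≤
      (Real.sqrt (bud v Lam l V m) + leak Lam l) ^ 2

omit [Fintype ι] [DecidableEq ι] in
theorem mass_nonneg (v : ι → Fin d → ℝ) (V : Finset ι) (i : Fin d) : 0 ≤ mass v V i :=
  sum_nonneg fun _ _ => sq_nonneg _

omit [Fintype ι] [DecidableEq ι] in
theorem mass_mono (v : ι → Fin d → ℝ) {W V : Finset ι} (h : W ⊆ V) (i : Fin d) :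
    mass v W i ≤ mass v V i :=
  sum_le_sum_of_subset_of_nonneg h fun _ _ _ => sq_nonneg _

theorem capLog_le (d : ℕ) : capLog d ≤ 53 + 11 * Real.log ((d : ℝ) + 1) := by
  have hR := richThr_pos d
  have h1 : 1 ≤ richThr d := by
    refine le_trans ?_ (lowThr_le_richThr d)
    rw [lowThr, cerr]
    have h2 := (rho_ge d).2
    have h3 := one_le_pow₀ (n := 2) (one_le_dim d)
    exact one_le_mul_of_one_le_of_one_le (by linarith) h3
  calc capLog d ≤ Real.log (2 ^ 75 * ((d : ℝ) + 1) ^ 11) := by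
        refine Real.log_le_log (by linarith) ?_
        have e : richThr d = 10240000000000000000000 * ((d : ℝ) + 1) ^ 11 := by
          rw [richThr, lowThr, cerr, rho]; ring
        have h3 : 0 ≤ ((d : ℝ) + 1) ^ 11 := by positivity
        have h4 : (30720000000000000000000:ℝ) * ((d : ℝ) + 1) ^ 11 ≤
            2 ^ 75 * ((d : ℝ) + 1) ^ 11 := mul_le_mul_of_nonneg_right (by norm_num) h3
        linarith
    _ = 75 * Real.log 2 + 11 * Real.log ((d : ℝ) + 1) := by
        rw [Real.log_mul (by positivity) (by positivity), Real.log_pow, Real.log_pow]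
        norm_num
    _ ≤ _ := by linarith [Real.log_two_lt_d9]

theorem sqrt_totalBud_le (d : ℕ) : Real.sqrt (totalBud d) + 2 ≤ rho d := by
  have hp := one_le_dim d
  have hd : (0:ℝ) ≤ d := Nat.cast_nonneg d
  have hlog : Real.log ((d : ℝ) + 1) ≤ (d : ℝ) := by
    linarith [Real.log_le_sub_one_of_pos (show (0:ℝ) < (d:ℝ) + 1 by positivity)]
  have hc := capLog_le d
  have h1 : totalBud d ≤ ((d : ℝ) + 1) * (25000000 * ((d : ℝ) + 1)) := by
    rw [totalBud]
    refine mul_le_mul (by linarith) ?_ (by have := capLog_nonneg d; have := allow_pos d; positivity)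
      (by positivity)
    rw [allow, harm]
    linarith
  have h2 : Real.sqrt (totalBud d) ≤ 5000 * ((d : ℝ) + 1) := by
    rw [Real.sqrt_le_left (by positivity)]
    linarith
  have h3 := (rho_ge d).1
  have h4 : (d : ℝ) + 1 ≤ ((d : ℝ) + 1) ^ 2 := le_self_pow₀ hp two_ne_zero
  linarith

variable (v : ι → Fin d → ℝ) (Lam : Fin d → ℝ) (hLam : ∀ i, 0 ≤ Lam i)

include hLam in
theorem exists_all_loose (l : ℕ) : ∃ m, l ≤ m ∧ loose Lam m = univ ∧ solid Lam m = ∅ := by
  have hT := lowThr_pos d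
  obtain ⟨n, hn⟩ := pow_unbounded_of_one_lt ((∑ i, Lam i) / lowThr d) (one_lt_two (α := ℝ))
  refine ⟨max l n, le_max_left _ _, ?_⟩
  have h : ∀ i, Lam i / 2 ^ max l n < lowThr d := fun i => by
    rw [div_lt_iff₀ (by positivity)]
    rw [div_lt_iff₀ hT] at hn
    refine lt_of_le_of_lt (single_le_sum (f := Lam) (fun j _ => hLam j) (mem_univ i))
      (hn.trans_le ?_)
    rw [mul_comm]
    exact mul_le_mul_of_nonneg_left (pow_le_pow_right₀ one_le_two (le_max_right _ _)) hT.le
  constructor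
  · refine eq_univ_of_forall fun i => (mem_loose Lam).mpr fun hr => ?_
    exact absurd ((mem_rich Lam).mp hr) (not_le.mpr ((h i).trans_le (lowThr_le_richThr d)))
  · exact eq_empty_of_forall_notMem fun i hi =>
      absurd ((mem_solid Lam).mp hi) (not_le.mpr (h i))

omit [Fintype ι] [DecidableEq ι] in
theorem bud_le_total (l : ℕ) (V : Finset ι) (m : ℕ) : bud v Lam l V m ≤ totalBud d := by
  have hc := capLog_nonneg d
  have ha := allow_pos d
  have h1 : ∀ S : Finset (Fin d), (S.card : ℝ) ≤ d := fun S => by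
    exact_mod_cast (card_le_univ S).trans (by simp)
  have h2 : ∑ i ∈ loose Lam l, (capLog d - Real.log (1 + mass v V i)) ≤ d * capLog d := by
    refine (sum_le_card_nsmul _ _ (capLog d) fun i _ => sub_le_self _
      (Real.log_nonneg (le_add_of_nonneg_right (mass_nonneg v V i)))).trans ?_
    rw [nsmul_eq_mul]
    exact mul_le_mul_of_nonneg_right (h1 _) hc
  have h3 := mul_le_mul_of_nonneg_left (h1 (loose Lam m)) ha.le
  rw [bud, totalBud]
  linarith

include hLam in
omit [Fintype ι] [DecidableEq ι] in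
theorem mass_le_rich {l : ℕ} {V : Finset ι} {P : Fin d → ℝ} (hN : Node v Lam l V P) {i : Fin d}
    (hi : i ∈ loose Lam l) : mass v V i ≤ 2 * richThr d := by
  by_cases hs : i ∈ solid Lam l
  · have h := hN.quad i hs i hs
    have hl := solid_pos Lam hs
    rw [if_pos rfl, Real.sqrt_mul_self hl.le] at h
    have he : relErr Lam l ≤ 1 := (relErr_le Lam hLam l).trans (by
      rw [div_le_one (by positivity)]; linarith [one_le_dim d])
    have h2 := mul_le_mul_of_nonneg_right he hl.le
    have h3 := (abs_le.mp h).2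
    have h4 : lam Lam l i < richThr d := (mem_filter.mp hi).2
    have e : mass v V i = ∑ a ∈ V, v a i * v a i := sum_congr rfl fun a _ => sq _
    linarith
  · linarith [hN.low i hs, lowThr_le_richThr d]

include hLam in
omit [Fintype ι] [DecidableEq ι] in
theorem bud_nonneg {l : ℕ} {V : Finset ι} {P : Fin d → ℝ} (hN : Node v Lam l V P) (m : ℕ) :
    0 ≤ bud v Lam l V m := by
  refine add_nonneg (mul_nonneg (by norm_num) (sum_nonneg fun i hi => sub_nonneg.mpr ?_))
    (mul_nonneg (allow_pos d).le (Nat.cast_nonneg _))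
  exact Real.log_le_log (by linarith [mass_nonneg v V i])
    (by linarith [mass_le_rich v Lam hLam hN hi])

include hLam in
omit [Fintype ι] [DecidableEq ι] in
theorem center_le {l : ℕ} {V : Finset ι} {P : Fin d → ℝ} (hN : Node v Lam l V P) (i : Fin d) :
    |P i + (∑ a ∈ V, v a i) / 2| ≤ rho d := by
  obtain ⟨m, hlm, hu, -⟩ := exists_all_loose Lam hLam l
  have hs := sqrt_totalBud_le d
  have hb := Real.sqrt_le_sqrt (bud_le_total v Lam l V m)
  have hl := leak_le Lam hLam l
  have h0 : 0 ≤ Real.sqrt (bud v Lam l V m) + leak Lam l :=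
    add_nonneg (Real.sqrt_nonneg _) (leak_nonneg Lam l)
  have h1 : |P i| ≤ Real.sqrt (bud v Lam l V m) + leak Lam l := by
    refine abs_le.mpr (abs_le_of_sq_le_sq' ((single_le_sum (f := fun i => P i ^ 2)
      (fun j _ => sq_nonneg _) (hu ▸ mem_univ i)).trans (hN.left m hlm)) h0)
  have h2 : |P i + ∑ a ∈ V, v a i| ≤ Real.sqrt (bud v Lam l V m) + leak Lam l := by
    refine abs_le.mpr (abs_le_of_sq_le_sq' ((single_le_sum
      (f := fun i => (P i + ∑ a ∈ V, v a i) ^ 2)
      (fun j _ => sq_nonneg _) (hu ▸ mem_univ i)).trans (hN.right m hlm)) h0)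
  obtain ⟨a1, a2⟩ := abs_le.mp h1
  obtain ⟨b1, b2⟩ := abs_le.mp h2
  rw [abs_le]
  constructor <;> linarith

include hLam in
/-- A shift absorbing the rich coordinates and vanishing on the middle ones. -/
theorem exists_shift (hv : ∀ a, ∑ i, v a i ^ 2 ≤ 1) {l : ℕ} {V : Finset ι} {e : ℝ}
    (he0 : 0 ≤ e) (hed : e * d ≤ 1 / 2)
    (hquad : ∀ i ∈ solid Lam l, ∀ k ∈ solid Lam l,
      |(∑ a ∈ V, v a i * v a k) - (if i = k then lam Lam l i else 0)| ≤
        e * Real.sqrt (lam Lam l i * lam Lam l k))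
    (t : Fin d → ℝ) (ht0 : ∀ i, i ∉ rich Lam l → t i = 0)
    (ht : ∀ i, |t i| ≤ 2 * rho d) :
    ∃ x₀ : ι → ℝ, (∀ a, |x₀ a| ≤ 4 * rho d * invSum Lam l) ∧
      (∀ i ∈ solid Lam l, ∑ a ∈ V, x₀ a * v a i = t i) ∧
      ∑ a ∈ V, x₀ a ^ 2 ≤ 8 * rho d ^ 2 * ∑ i ∈ rich Lam l, 2 ^ l / Lam i := by
  set S := solid Lam l with hS
  have hform : ∀ y : Fin d → ℝ, (1/2) * ∑ i ∈ S, lam Lam l i * y i ^ 2 ≤
      ∑ i ∈ S, ∑ k ∈ S, y i * y k * ∑ a ∈ V, v a i * v a k := by
    intro y
    have hdiag : ∑ i ∈ S, ∑ k ∈ S, y i * y k * (if i = k then lam Lam l i else 0) =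
        ∑ i ∈ S, lam Lam l i * y i ^ 2 := by
      refine sum_congr rfl fun i hi => ?_
      rw [sum_eq_single i (fun k _ hk => by simp [Ne.symm hk]) (fun h => absurd hi h)]
      simp [sq, mul_comm]
    have herr : |∑ i ∈ S, ∑ k ∈ S, y i * y k * ((∑ a ∈ V, v a i * v a k)
        - (if i = k then lam Lam l i else 0))| ≤
        e * (∑ i ∈ S, Real.sqrt (lam Lam l i) * |y i|) ^ 2 := by
      refine (abs_sum_le_sum_abs _ _).trans ?_
      rw [sq, sum_mul, mul_sum]
      refine sum_le_sum fun i hi => ?_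
      refine (abs_sum_le_sum_abs _ _).trans ?_
      rw [mul_sum, mul_sum]
      refine sum_le_sum fun k hk => ?_
      rw [abs_mul, abs_mul]
      refine (mul_le_mul_of_nonneg_left (hquad i hi k hk) (by positivity)).trans (le_of_eq ?_)
      rw [Real.sqrt_mul (solid_pos Lam hi).le]
      ring
    have hcs : (∑ i ∈ S, Real.sqrt (lam Lam l i) * |y i|) ^ 2 ≤
        (d : ℝ) * ∑ i ∈ S, lam Lam l i * y i ^ 2 := by
      have h := sum_mul_sq_le_sq_mul_sq S (fun _ => (1:ℝ))
        (fun i => Real.sqrt (lam Lam l i) * |y i|)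
      simp only [one_mul, one_pow, sum_const, nsmul_eq_mul, mul_one] at h
      refine h.trans (mul_le_mul (Nat.cast_le.mpr ((card_le_univ S).trans (by simp)))
        (le_of_eq (sum_congr rfl fun i hi => ?_)) (sum_nonneg fun _ _ => sq_nonneg _)
        (Nat.cast_nonneg _))
      rw [mul_pow, Real.sq_sqrt (solid_pos Lam hi).le, sq_abs]
    have hpos : 0 ≤ ∑ i ∈ S, lam Lam l i * y i ^ 2 :=
      sum_nonneg fun i hi => mul_nonneg (solid_pos Lam hi).le (sq_nonneg _)
    have hdiff : (∑ i ∈ S, ∑ k ∈ S, y i * y k * ∑ a ∈ V, v a i * v a k) =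
        (∑ i ∈ S, ∑ k ∈ S, y i * y k * ((∑ a ∈ V, v a i * v a k)
          - (if i = k then lam Lam l i else 0))) + ∑ i ∈ S, lam Lam l i * y i ^ 2 := by
      rw [← hdiag]
      simp only [mul_sub, sum_sub_distrib, sub_add_cancel]
    have h1 := (abs_le.mp herr).1
    have h2 := mul_le_mul_of_nonneg_left hcs (he0)
    have h3 := mul_le_mul_of_nonneg_right hed hpos
    rw [hdiff]
    linarith
  let f : (Fin d → ℝ) →ₗ[ℝ] (Fin d → ℝ) :=
    { toFun := fun w i => if i ∈ S then ∑ k ∈ S, (∑ a ∈ V, v a i * v a k) * w k else w i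
      map_add' := fun w w' => by
        funext i; simp only [Pi.add_apply]; split_ifs <;> simp [mul_add, sum_add_distrib]
      map_smul' := fun c w => by
        funext i
        simp only [Pi.smul_apply, smul_eq_mul, RingHom.id_apply]
        split_ifs <;> simp [mul_sum, mul_left_comm] }
  have hinj : Function.Injective f := by
    rw [← LinearMap.ker_eq_bot, Submodule.eq_bot_iff]
    intro w hw
    have hw' : ∀ i, f w i = 0 := fun i => by rw [LinearMap.mem_ker.mp hw]; rfl
    have hz : ∑ i ∈ S, lam Lam l i * w i ^ 2 ≤ 0 := by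
      have h := hform w
      have h0 : ∑ i ∈ S, ∑ k ∈ S, w i * w k * ∑ a ∈ V, v a i * v a k = 0 := by
        refine sum_eq_zero fun i hi => ?_
        have h1 := hw' i
        simp only [f, LinearMap.coe_mk, AddHom.coe_mk, if_pos hi] at h1
        calc ∑ k ∈ S, w i * w k * ∑ a ∈ V, v a i * v a k
            = w i * ∑ k ∈ S, (∑ a ∈ V, v a i * v a k) * w k := by
              rw [mul_sum]; exact sum_congr rfl fun k _ => by ring
          _ = 0 := by rw [h1, mul_zero]
      linarith
    funext i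
    by_cases hi : i ∈ S
    · have h := (sum_eq_zero_iff_of_nonneg fun k hk =>
        mul_nonneg (solid_pos Lam hk).le (sq_nonneg (w k))).mp (le_antisymm hz
        (sum_nonneg fun k hk => mul_nonneg (solid_pos Lam hk).le (sq_nonneg _))) i hi
      simpa [(solid_pos Lam hi).ne'] using h
    · simpa [f, hi] using hw' i
  obtain ⟨w, hw⟩ := LinearMap.injective_iff_surjective.mp hinj (fun i => if i ∈ S then t i else 0)
  have hwS : ∀ i ∈ S, ∑ k ∈ S, (∑ a ∈ V, v a i * v a k) * w k = t i := fun i hi => by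
    have h := congrFun hw i
    simpa [f, hi] using h
  refine ⟨fun a => ∑ k ∈ S, w k * v a k, fun a => ?_, fun i hi => ?_, ?_⟩
  rotate_left
  · rw [← hwS i hi]
    simp only [sum_mul]
    rw [sum_comm]
    exact sum_congr rfl fun k _ => sum_congr rfl fun a _ => by ring
  all_goals
    set q := ∑ i ∈ S, w i * t i with hq
    have hsq : ∑ a ∈ V, (∑ k ∈ S, w k * v a k) ^ 2 = q := by
      calc ∑ a ∈ V, (∑ k ∈ S, w k * v a k) ^ 2
          = ∑ i ∈ S, w i * ∑ k ∈ S, (∑ a ∈ V, v a i * v a k) * w k := by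
            simp only [sq, sum_mul, mul_sum]
            rw [sum_comm]
            refine sum_congr rfl fun i _ => ?_
            rw [sum_comm]
            exact sum_congr rfl fun k _ => sum_congr rfl fun a _ => by ring
        _ = q := sum_congr rfl fun i hi => by rw [hwS i hi]
    have hlow : (1/2) * ∑ i ∈ S, lam Lam l i * w i ^ 2 ≤ q := by
      refine (hform w).trans (le_of_eq (sum_congr rfl fun i hi => ?_))
      rw [← hwS i hi, mul_sum]
      exact sum_congr rfl fun k _ => by ring
    have hup : q ≤ (1/4) * ∑ i ∈ S, lam Lam l i * w i ^ 2 + ∑ i ∈ S, t i ^ 2 / lam Lam l i := by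
      rw [hq, mul_sum, ← sum_add_distrib]
      refine sum_le_sum fun i hi => ?_
      have hl := solid_pos Lam (l := l) hi
      have : 0 ≤ (lam Lam l i * w i - 2 * t i) ^ 2 / (4 * lam Lam l i) := by positivity
      have e2 : (lam Lam l i * w i - 2 * t i) ^ 2 / (4 * lam Lam l i) =
          1/4 * (lam Lam l i * w i ^ 2) + t i ^ 2 / lam Lam l i - w i * t i := by
        field_simp
        ring
      linarith
    have hterm : ∀ i ∈ S, t i ^ 2 / lam Lam l i ≤ 4 * rho d ^ 2 * (1 / lam Lam l i) := by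
      intro i hi
      rw [mul_one_div]
      refine div_le_div_of_nonneg_right ?_ (solid_pos Lam hi).le
      calc t i ^ 2 = |t i| ^ 2 := (sq_abs _).symm
        _ ≤ (2 * rho d) ^ 2 := pow_le_pow_left₀ (abs_nonneg _) (ht i) 2
        _ = _ := by ring
  · -- the norm of the shift
    rw [hsq]
    have h1 : ∑ i ∈ S, t i ^ 2 / lam Lam l i ≤
        4 * rho d ^ 2 * ∑ i ∈ rich Lam l, 2 ^ l / Lam i := by
      rw [mul_sum, ← sum_subset (rich_subset_solid Lam l) fun i _ hi => by rw [ht0 i hi]; simp]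
      refine sum_le_sum fun i hi => (hterm i (rich_subset_solid Lam l hi)).trans (le_of_eq ?_)
      rw [lam, one_div_div]
    linarith
  · -- the entrywise bound
    beta_reduce
    have hsum : ∑ i ∈ S, 1 / lam Lam l i = invSum Lam l := by
      simp only [invSum, lam, one_div_div, hS]
    have hs := invSum_nonneg Lam hLam l
    have hweighted : ∑ i ∈ S, lam Lam l i * w i ^ 2 ≤ 16 * rho d ^ 2 * invSum Lam l := by
      have h1 := sum_le_sum hterm
      rw [← mul_sum, hsum] at h1
      linarith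
    have hw2 : ∑ i ∈ S, w i ^ 2 ≤ (4 * rho d * invSum Lam l) ^ 2 := by
      calc ∑ i ∈ S, w i ^ 2 ≤ ∑ i ∈ S, invSum Lam l * (lam Lam l i * w i ^ 2) := by
            refine sum_le_sum fun i hi => ?_
            have h := invSum_ge Lam (hS ▸ hi)
            rw [div_le_iff₀ (solid_pos Lam hi)] at h
            rw [← mul_assoc]
            exact le_mul_of_one_le_left (sq_nonneg _) h
        _ ≤ invSum Lam l * (16 * rho d ^ 2 * invSum Lam l) := by
            rw [← mul_sum]; exact mul_le_mul_of_nonneg_left hweighted hs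
        _ = _ := by ring
    have h0 : 0 ≤ 4 * rho d * invSum Lam l := by have := rho_pos d; positivity
    refine abs_le_of_sq_le_sq ?_ h0
    refine (sum_mul_sq_le_sq_mul_sq S w (v a)).trans ?_
    refine le_trans (mul_le_mul hw2 ((sum_le_sum_of_subset_of_nonneg (subset_univ S)
      fun i _ _ => sq_nonneg _).trans (hv a)) (sum_nonneg fun i _ => sq_nonneg _) (sq_nonneg _)) ?_
    rw [mul_one]

end Vale.Agent.P262.Sharp
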