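import Vale.Agent.P262.Sharp.Shift

/-!
One split of a block, possibly with one vector set aside.
-/

open Finset

namespace Vale.Agent.P262.Sharp

variable {ι : Type*} [Fintype ι] [DecidableEq ι] {d : ℕ}

/-- The drop of the potential caused by one vector. -/
noncomputable def gainOf (v : ι → Fin d → ℝ) (Lam : Fin d → ℝ) (l : ℕ) (V : Finset ι) (a : ι) : ℝ :=
  ∑ i ∈ loose Lam l, v a i ^ 2 / (1 + mass v V i)

/-- The available drop of the potential. -/
noncomputable def gainTot (v : ι → Fin d → ℝ) (Lam : Fin d → ℝ) (l : ℕ) (V : Finset ι) : ℝ :=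
  ∑ a ∈ V, gainOf v Lam l V a

omit [Fintype ι] [DecidableEq ι] in
theorem gainOf_nonneg (v : ι → Fin d → ℝ) (Lam : Fin d → ℝ) (l : ℕ) (V : Finset ι) (a : ι) :
    0 ≤ gainOf v Lam l V a :=
  sum_nonneg fun i _ => div_nonneg (sq_nonneg _) (by linarith [mass_nonneg v V i])

omit [Fintype ι] [DecidableEq ι] in
theorem gainTot_eq (v : ι → Fin d → ℝ) (Lam : Fin d → ℝ) (l : ℕ) (V : Finset ι) :
    gainTot v Lam l V = ∑ i ∈ loose Lam l, mass v V i / (1 + mass v V i) := by
  simp only [gainTot, gainOf, mass, sum_div]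
  exact sum_comm

variable (v : ι → Fin d → ℝ) (Lam : Fin d → ℝ) (hLam : ∀ i, 0 ≤ Lam i)

omit [Fintype ι] [DecidableEq ι] in
theorem sum_min_le_gainTot (l : ℕ) (V : Finset ι) :
    ∑ i ∈ loose Lam l, min 8 (mass v V i) ≤ 9 * gainTot v Lam l V := by
  rw [gainTot_eq, mul_sum]
  refine sum_le_sum fun i _ => ?_
  have h := mass_nonneg v V i
  rw [mul_div_assoc', le_div_iff₀ (by linarith)]
  rcases le_total 8 (mass v V i) with h8 | h8
  · rw [min_eq_left h8]; linarith
  · rw [min_eq_right h8]
    nlinarith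

omit [Fintype ι] [DecidableEq ι] in
theorem vec_le_gainTot (hv : ∀ a, ∑ i, v a i ^ 2 ≤ 1) (l : ℕ) {V : Finset ι} {a : ι}
    (ha : a ∈ V) : ∑ i ∈ loose Lam l, v a i ^ 2 ≤ 2 * gainTot v Lam l V := by
  rw [gainTot_eq, mul_sum]
  refine sum_le_sum fun i _ => ?_
  have h1 : v a i ^ 2 ≤ 1 :=
    (single_le_sum (f := fun i => v a i ^ 2) (fun j _ => sq_nonneg _) (mem_univ i)).trans (hv a)
  have h2 : v a i ^ 2 ≤ mass v V i :=
    single_le_sum (f := fun a => v a i ^ 2) (fun b _ => sq_nonneg _) ha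
  have h := mass_nonneg v V i
  rw [mul_div_assoc', le_div_iff₀ (by linarith)]
  nlinarith [sq_nonneg (v a i)]

include hLam in
omit [Fintype ι] [DecidableEq ι] in
theorem mass_le_two_lam {l : ℕ} {V : Finset ι} {P : Fin d → ℝ} (hN : Node v Lam l V P)
    {i : Fin d} (hi : i ∈ solid Lam l) : mass v V i ≤ 2 * lam Lam l i := by
  have h := hN.quad i hi i hi
  have hl := solid_pos Lam hi
  rw [if_pos rfl, Real.sqrt_mul_self hl.le] at h
  have he : relErr Lam l ≤ 1 := (relErr_le Lam hLam l).trans (by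
    rw [div_le_one (by positivity)]; linarith [one_le_dim d])
  have h2 := mul_le_mul_of_nonneg_right he hl.le
  have h3 := (abs_le.mp h).2
  have e : mass v V i = ∑ a ∈ V, v a i * v a i := sum_congr rfl fun a _ => sq _
  linarith

omit [Fintype ι] [DecidableEq ι] in
theorem abs_entry_le_one (hv : ∀ a, ∑ i, v a i ^ 2 ≤ 1) (a : ι) (i : Fin d) : |v a i| ≤ 1 :=
  (sq_le_one_iff_abs_le_one _).mp
    ((single_le_sum (f := fun i => v a i ^ 2) (fun j _ => sq_nonneg _) (mem_univ i)).trans (hv a))

omit [Fintype ι] in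
include hLam in
theorem one_le_invSum_mul_sqrt {l : ℕ} {i k : Fin d} (hi : i ∈ solid Lam l)
    (hk : k ∈ solid Lam l) : 1 ≤ invSum Lam l * Real.sqrt (lam Lam l i * lam Lam l k) := by
  have hs := invSum_nonneg Lam hLam l
  have h1 := invSum_ge Lam hi
  have h2 := invSum_ge Lam hk
  rw [div_le_iff₀ (solid_pos Lam hi)] at h1
  rw [div_le_iff₀ (solid_pos Lam hk)] at h2
  rw [← Real.sqrt_sq hs, ← Real.sqrt_mul (sq_nonneg _), Real.one_le_sqrt]
  calc (1:ℝ) = 1 * 1 := (one_mul 1).symm
    _ ≤ (invSum Lam l * lam Lam l i) * (invSum Lam l * lam Lam l k) :=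
        mul_le_mul h1 h2 zero_le_one (zero_le_one.trans h1)
    _ = _ := by ring

include hLam in
/-- The splitting step: `U` is set aside, the rest is divided into two halves. -/
theorem exists_split (hv : ∀ a, ∑ i, v a i ^ 2 ≤ 1) {l : ℕ} {V : Finset ι} {P : Fin d → ℝ}
    (hN : Node v Lam l V P) (U : Finset ι) (hU : U ⊆ V) (hU1 : U.card ≤ 1) {rm : ℝ}
    (hrm0 : 0 ≤ rm) (hrm : ∀ a ∈ V \ U, gainOf v Lam l V a ≤ rm) :
    ∃ V₁, V₁ ⊆ V \ U ∧ ∃ X E : Fin d → ℝ,
      (∀ i, ∑ a ∈ V₁, v a i - (∑ a ∈ V \ U, v a i) / 2 = (X i + E i) / 2) ∧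
      (∀ i ∈ rich Lam l, X i = -2 * (P i + (∑ a ∈ V, v a i) / 2)) ∧
      ∑ i ∈ loose Lam l, (X i / 2) ^ 2 ≤ leakStep Lam l ^ 2 ∧
      ∑ i ∈ loose Lam l, (P i + (∑ a ∈ V, v a i) / 2 + X i / 2) * E i ≤ 0 ∧
      ∑ i ∈ loose Lam l, E i ^ 2 ≤ 5184 * gainTot v Lam l V ∧
      (∀ S ⊆ rich Lam l, (∀ i ∈ S, ∀ k ∈ rich Lam l, Lam k ≤ Lam i → k ∈ S) →
        ∑ i ∈ S, E i ^ 2 ≤ 576 * harm d * S.card) ∧
      (∀ W, W = V₁ ∨ W = (V \ U) \ V₁ →
        |∑ a ∈ W, gainOf v Lam l V a - (∑ a ∈ V \ U, gainOf v Lam l V a) / 2| ≤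
          gainTot v Lam l V / 8 + 8 * rm) ∧
      (∀ W W', (W = V₁ ∨ W = (V \ U) \ V₁) → W ⊆ W' → W' ⊆ W ∪ U →
        ∀ i ∈ solid Lam l, ∀ k ∈ solid Lam l,
          |(∑ a ∈ W', v a i * v a k) - (if i = k then lam Lam (l+1) i else 0)| ≤
            relErr Lam (l+1) * Real.sqrt (lam Lam (l+1) i * lam Lam (l+1) k)) := by
  classical
  set V' := V \ U with hV'
  have hV'V : V' ⊆ V := sdiff_subset
  set s := invSum Lam l with hs
  have hs0 : 0 ≤ s := invSum_nonneg Lam hLam l
  have hη : 4 * rho d * s ≤ 1/4 := shift_small Lam hLam l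
  have hη0 : 0 ≤ 4 * rho d * s := by have := rho_pos d; positivity
  have hentry := abs_entry_le_one v hv
  have hUabs : ∀ U' ⊆ U, ∀ i k, |∑ a ∈ U', v a i * v a k| ≤ 1 := by
    intro U' hU' i k
    refine (abs_sum_le_sum_abs _ _).trans ((sum_le_card_nsmul _ _ (1:ℝ) fun a _ => ?_).trans ?_)
    · rw [abs_mul]; exact mul_le_one₀ (hentry a i) (abs_nonneg _) (hentry a k)
    · rw [nsmul_one]
      exact_mod_cast (card_le_card hU').trans hU1
  have hquad' : ∀ i ∈ solid Lam l, ∀ k ∈ solid Lam l,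
      |(∑ a ∈ V', v a i * v a k) - (if i = k then lam Lam l i else 0)| ≤
        (relErr Lam l + 4 * s) * Real.sqrt (lam Lam l i * lam Lam l k) := by
    intro i hi k hk
    have h1 := hN.quad i hi k hk
    have h2 := one_le_invSum_mul_sqrt Lam hLam hi hk
    rw [← hs] at h2
    rw [← sum_sdiff hU, ← hV'] at h1
    obtain ⟨a1, a2⟩ := abs_le.mp h1
    obtain ⟨b1, b2⟩ := abs_le.mp (hUabs U (subset_refl _) i k)
    rw [abs_le]
    constructor <;> linarith
  obtain ⟨x₀, hx0, hxS, hxn⟩ := exists_shift v Lam hLam hv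
    (add_nonneg (relErr_nonneg Lam hLam l) (by positivity)) (relErr_add_invSum Lam hLam l) hquad'
    (fun i => if i ∈ rich Lam l then -2 * (P i + (∑ a ∈ V, v a i) / 2) else 0)
    (fun i hi => if_neg hi) (fun i => by
      split_ifs with h
      · rw [abs_mul, abs_neg, abs_two]
        exact mul_le_mul_of_nonneg_left (center_le v Lam hLam hN i) zero_le_two
      · rw [abs_zero]; linarith [rho_pos d])
  let X : Fin d → ℝ := fun i => ∑ a ∈ V', x₀ a * v a i
  let r : (Fin d ⊕ (Fin d × Fin d)) ⊕ Unit → ↥V' → ℝ := fun j a => match j with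
    | Sum.inl (Sum.inl i) => v a i
    | Sum.inl (Sum.inr ik) => v a ik.1 * v a ik.2
    | Sum.inr _ => gainOf v Lam l V a
  obtain ⟨x, hx, hxr, hfrac⟩ := exists_vertex r (fun a : ↥V' => x₀ a) (fun a =>
    (hx0 a).trans (by linarith))
  set S₀ := ∑ i ∈ loose Lam l, min 8 (mass v V i) with hS₀
  have hS₀0 : 0 ≤ S₀ := sum_nonneg fun i _ => le_min (by norm_num) (mass_nonneg v V i)
  have hH := one_le_harm d
  let γ : ℝ := if 0 < S₀ then S₀ / harm d else 1
  have hγ : 0 < γ := by simp only [γ]; split_ifs with h <;> positivity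
  have hγS : S₀ ≤ γ * harm d := by
    simp only [γ]
    split_ifs with h
    · rw [div_mul_cancel₀ _ (by linarith)]
    · linarith
  let M : Fin d → ℝ := fun i => if i ∈ rich Lam l then 8 else min 8 (mass v V i)
  let ω : Fin d → ℝ := fun i =>
    if i ∈ rich Lam l then γ / (rank Lam (rich Lam l) i) else 1
  have hrank : ∀ i ∈ rich Lam l, 0 < (rank Lam (rich Lam l) i : ℝ) := fun i hi =>
    Nat.cast_pos.mpr (card_pos.mpr ⟨i, mem_filter.mpr ⟨hi, le_refl _⟩⟩)
  obtain ⟨ε, hε1, hεx, hεu, hεb, hεc⟩ := exists_round (fun i (a : ↥V') => v a i) ω M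
    (fun a => gainOf v Lam l V a)
    (fun a => ∑ i ∈ loose Lam l, (P i + (∑ a ∈ V, v a i) / 2 + X i / 2) * v a i)
    x hx (fun a => hv a)
    (fun i => by
      simp only [ω]; split_ifs with h
      · exact div_pos hγ (hrank i h)
      · exact one_pos)
    (fun i => by
      simp only [M]; split_ifs
      · norm_num
      · exact le_min (by norm_num) (mass_nonneg v V i))
    (fun i => by
      simp only [M]
      split_ifs with h
      · exact Or.inl rfl
      · rcases le_total 8 (mass v V i) with h8 | h8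
        · exact Or.inl (min_eq_left h8)
        · refine Or.inr ?_
          rw [min_eq_right h8, sum_coe_sort V' (fun a => v a i ^ 2)]
          exact mass_mono v hV'V i)
    (fun a => by rw [abs_of_nonneg (gainOf_nonneg v Lam l V a)]; exact hrm a a.2) hrm0
  let E : Fin d → ℝ := fun i => ∑ a : ↥V', (ε a - x a) * v a i
  let e : ι → ℝ := fun a => if h : a ∈ V' then ε ⟨a, h⟩ else 0
  have he1 : ∀ a ∈ V', e a = 1 ∨ e a = -1 := fun a ha => by simpa [e, ha] using hε1 ⟨a, ha⟩
  set V₁ := V'.filter fun a => e a = 1 with hV₁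
  have hV₁sub : V₁ ⊆ V' := filter_subset _ _
  have hhalf : ∀ F : ι → ℝ,
      ∑ a ∈ V₁, F a - (∑ a ∈ V', F a) / 2 = (∑ a ∈ V', e a * F a) / 2 := by
    intro F
    rw [hV₁, sum_filter, sum_div, sum_div, ← sum_sub_distrib]
    refine sum_congr rfl fun a ha => ?_
    rcases he1 a ha with h | h
    · rw [if_pos h, h]; ring
    · rw [if_neg (by rw [h]; norm_num), h]; ring
  have hhalf' : ∀ W, (W = V₁ ∨ W = V' \ V₁) → ∀ F : ι → ℝ,
      |∑ a ∈ W, F a - (∑ a ∈ V', F a) / 2| = |∑ a ∈ V', e a * F a| / 2 := by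
    intro W hW F
    have h2 := sum_sdiff (f := F) hV₁sub
    have h3 := hhalf F
    rw [← abs_two (α := ℝ), ← abs_div, abs_two]
    rcases hW with rfl | rfl
    · rw [h3]
    · rw [← abs_neg ((∑ a ∈ V', e a * F a) / 2)]
      congr 1
      linarith
  have hrowsum : ∀ F : ι → ℝ,
      ∑ a : ↥V', F a * x a = ∑ a : ↥V', F a * x₀ a →
      ∑ a ∈ V', e a * F a = (∑ a ∈ V', x₀ a * F a) + ∑ a : ↥V', (ε a - x a) * F a := by
    intro F hrow
    rw [← sum_coe_sort V' (fun a => e a * F a), ← sum_coe_sort V' (fun a => x₀ a * F a)]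
    have : ∑ a : ↥V', x a * F a = ∑ a : ↥V', x₀ a * F a := by
      simpa [mul_comm] using hrow
    simp only [sub_mul, sum_sub_distrib, this]
    have e2 : ∑ a : ↥V', e a * F a = ∑ a : ↥V', ε a * F a :=
      sum_congr rfl fun a _ => by simp [e]
    rw [e2]
    ring
  have hE : ∀ i, E i ^ 2 * ω i ≤ 64 * ∑ k, ω k * M k := fun i => by
    refine le_trans ?_ hεu
    rw [mul_comm]
    exact single_le_sum (f := fun i => ω i * (∑ a : ↥V', (ε a - x a) * v a i) ^ 2)
      (fun k _ => mul_nonneg (by simp only [ω]; split_ifs <;> positivity) (sq_nonneg _))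
      (mem_univ i)
  have hWM : ∑ k, ω k * M k ≤ S₀ + 8 * (γ * harm d) := by
    rw [← sum_filter_add_sum_filter_not univ (fun k => k ∈ rich Lam l), add_comm]
    refine add_le_add (le_of_eq (sum_congr ?_ fun k hk => ?_)) ?_
    · ext k
      simp [mem_loose]
    · have hk' := (mem_loose Lam).mp hk
      simp [ω, M, hk']
    · rw [filter_mem_eq_inter, univ_inter]
      have h := mul_le_mul_of_nonneg_left (sum_inv_rank Lam (rich Lam l)) hγ.le
      rw [mul_sum] at h
      have h8 := mul_le_mul_of_nonneg_left h (by norm_num : (0:ℝ) ≤ 8)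
      rw [mul_sum] at h8
      refine le_trans (le_of_eq (sum_congr rfl fun k hk => ?_)) h8
      simp only [ω, M, if_pos hk]
      ring
  refine ⟨V₁, hV₁sub, X, E, fun i => ?_, fun i hi => ?_, ?_, ?_, ?_, fun S hS hdown => ?_,
    fun W hW => ?_, fun W W' hW hWW' hW'U i hi k hk => ?_⟩
  · rw [hhalf, hrowsum _ (by simpa [r] using hxr (Sum.inl (Sum.inl i)))]
  · simp only [X]
    rw [hxS i (rich_subset_solid Lam l hi), if_pos hi]
  · -- the leak
    set R := ∑ i ∈ rich Lam l, 2 ^ l / Lam i with hR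
    have hR0 : 0 ≤ R := sum_nonneg fun i _ => div_nonneg (by positivity) (hLam i)
    have hT := lowThr_pos d
    have hone : ∀ i ∈ loose Lam l, (X i / 2) ^ 2 ≤ 4 * rho d ^ 2 * lowThr d * R := by
      intro i hi
      by_cases hsol : i ∈ solid Lam l
      · simp only [X]
        rw [hxS i hsol, if_neg ((mem_loose Lam).mp hi)]
        simp
        positivity
      · have h1 : X i ^ 2 ≤ (8 * rho d ^ 2 * R) * (2 * lowThr d) :=
          (sum_mul_sq_le_sq_mul_sq V' x₀ (fun a => v a i)).trans
            (mul_le_mul hxn ((mass_mono v hV'V i).trans (hN.low i hsol))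
              (sum_nonneg fun _ _ => sq_nonneg _) (by positivity))
        rw [div_pow]
        linarith
    refine (sum_le_card_nsmul _ _ _ hone).trans ?_
    rw [nsmul_eq_mul, leakStep, mul_pow, mul_pow, mul_pow, Real.sq_sqrt (by positivity)]
    have hc : ((loose Lam l).card : ℝ) ≤ (d : ℝ) + 1 := by
      have : ((loose Lam l).card : ℝ) ≤ d := by exact_mod_cast (card_le_univ _).trans (by simp)
      linarith
    have hsq : R ≤ (∑ i ∈ rich Lam l, Real.sqrt (2 ^ l / Lam i)) ^ 2 := by
      rw [hR]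
      refine le_trans (le_of_eq (sum_congr rfl fun i _ => ?_))
        (sum_sq_le_sq_sum_of_nonneg fun i _ => Real.sqrt_nonneg _)
      rw [Real.sq_sqrt (div_nonneg (by positivity) (hLam i))]
    calc ((loose Lam l).card : ℝ) * (4 * rho d ^ 2 * lowThr d * R)
        ≤ ((d:ℝ) + 1) * (4 * rho d ^ 2 * lowThr d *
            (∑ i ∈ rich Lam l, Real.sqrt (2 ^ l / Lam i)) ^ 2) :=
          mul_le_mul hc (mul_le_mul_of_nonneg_left hsq (by positivity)) (by positivity)
            (by positivity)
      _ = _ := by ring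
  · -- the signed cross term
    refine le_trans (le_of_eq ?_) hεb
    simp only [E, mul_sum]
    rw [sum_comm]
    exact sum_congr rfl fun a _ => sum_congr rfl fun i _ => by ring
  · -- loose coordinates
    rcases hS₀0.eq_or_lt with h0 | hpos
    · have hz : ∀ i ∈ loose Lam l, E i = 0 := by
        intro i hi
        have h := (sum_eq_zero_iff_of_nonneg fun i _ =>
          le_min (by norm_num : (0:ℝ) ≤ 8) (mass_nonneg v V i)).mp h0.symm i hi
        have hm : mass v V i = 0 := by
          rcases le_total 8 (mass v V i) with h8 | h8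
          · rw [min_eq_left h8] at h; norm_num at h
          · rwa [min_eq_right h8] at h
        refine sum_eq_zero fun a _ => ?_
        rw [sq_eq_zero_iff.mp ((sum_eq_zero_iff_of_nonneg fun b _ => sq_nonneg _).mp hm a
          (hV'V a.2)), mul_zero]
      rw [sum_eq_zero fun i hi => by rw [hz i hi]; ring]
      exact mul_nonneg (by norm_num) (sum_nonneg fun a _ => gainOf_nonneg v Lam l V a)
    · have hγe : γ * harm d = S₀ := by
        simp only [γ, if_pos hpos]
        rw [div_mul_cancel₀ _ (by linarith)]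
      have h1 : ∑ i ∈ loose Lam l, E i ^ 2 ≤ 64 * ∑ k, ω k * M k := by
        refine le_trans ?_ hεu
        refine le_trans (le_of_eq (sum_congr rfl fun i hi => ?_))
          (sum_le_sum_of_subset_of_nonneg (subset_univ (loose Lam l)) fun k _ _ =>
            mul_nonneg (by simp only [ω]; split_ifs <;> positivity) (sq_nonneg _))
        simp [ω, E, (mem_loose Lam).mp hi]
      have h2 := sum_min_le_gainTot v Lam l V
      rw [← hS₀] at h2
      linarith
  · -- prefixes of the rich coordinates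
    rcases S.eq_empty_or_nonempty with rfl | hne
    · simp
    have hc : 0 < (S.card : ℝ) := Nat.cast_pos.mpr (card_pos.mpr hne)
    have h1 : γ / S.card * ∑ i ∈ S, E i ^ 2 ≤ 64 * ∑ k, ω k * M k := by
      refine le_trans ?_ hεu
      rw [mul_sum]
      refine le_trans (sum_le_sum (g := fun i => ω i * E i ^ 2) fun i hi => ?_)
        (sum_le_sum_of_subset_of_nonneg (subset_univ S) fun k _ _ =>
          mul_nonneg (by simp only [ω]; split_ifs <;> positivity) (sq_nonneg _))
      simp only [ω, if_pos (hS hi)]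
      refine mul_le_mul_of_nonneg_right (div_le_div_of_nonneg_left hγ.le (hrank i (hS hi))
        (Nat.cast_le.mpr (card_le_card fun k hk => ?_))) (sq_nonneg _)
      obtain ⟨hk1, hk2⟩ := mem_filter.mp hk
      exact hdown i hi k hk1 hk2
    have h2 : γ / S.card * ∑ i ∈ S, E i ^ 2 ≤ γ / S.card * (576 * harm d * S.card) := by
      rw [show γ / S.card * (576 * harm d * S.card) = 576 * (γ * harm d) by field_simp]
      linarith
    exact le_of_mul_le_mul_left h2 (div_pos hγ hc)
  · -- balance of the gains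
    rw [hhalf' W hW, hrowsum _ (by simpa [r] using hxr (Sum.inr ()))]
    have h1 : |∑ a ∈ V', x₀ a * gainOf v Lam l V a| ≤ gainTot v Lam l V / 4 := by
      refine (abs_sum_le_sum_abs _ _).trans ?_
      refine le_trans (sum_le_sum (g := fun a => 1/4 * gainOf v Lam l V a) fun a _ => ?_) ?_
      · rw [abs_mul, abs_of_nonneg (gainOf_nonneg v Lam l V a)]
        exact mul_le_mul_of_nonneg_right ((hx0 a).trans hη) (gainOf_nonneg v Lam l V a)
      · rw [← mul_sum, gainTot]
        have := sum_le_sum_of_subset_of_nonneg hV'V fun a _ _ => gainOf_nonneg v Lam l V a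
        linarith
    have h2 := abs_add_le (∑ a ∈ V', x₀ a * gainOf v Lam l V a)
      (∑ a : ↥V', (ε a - x a) * gainOf v Lam l V a)
    linarith
  · -- second moments
    set q : ι → ℝ := fun a => v a i * v a k with hq
    have hrow : ∑ a : ↥V', q a * x a = ∑ a : ↥V', q a * x₀ a := by
      simpa [r] using hxr (Sum.inl (Sum.inr (i, k)))
    have hsplit := hrowsum q hrow
    have hfr : |∑ a : ↥V', (ε a - x a) * q a| ≤ 2 * ((d:ℝ) + 1) ^ 2 := by
      refine (abs_sum_le_sum_abs _ _).trans ?_
      calc ∑ a : ↥V', |(ε a - x a) * q a| ≤ ∑ a : ↥V', (if a ∈ fracSet x then (2:ℝ) else 0) := by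
            refine sum_le_sum fun a _ => ?_
            split_ifs with hf
            · rw [abs_mul, hq, abs_mul]
              refine (mul_le_mul (b := (2:ℝ)) ?_ (mul_le_one₀ (hentry a i) (abs_nonneg _)
                (hentry a k)) (by positivity) zero_le_two).trans (le_of_eq (mul_one _))
              obtain ⟨h1, h2⟩ := abs_le.mp (hx a)
              rcases hε1 a with h | h <;> (rw [h, abs_le]; constructor <;> linarith)
            · simp only [fracSet, mem_filter, mem_univ, true_and, not_lt] at hf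
              rw [hεx a (le_antisymm (hx a) hf)]
              simp
        _ = ((fracSet x).card : ℝ) * 2 := by
            rw [sum_ite_mem, univ_inter, sum_const, nsmul_eq_mul]
        _ ≤ _ := by
            rw [mul_comm]
            refine mul_le_mul_of_nonneg_left ?_ zero_le_two
            have hc : ((fracSet x).card : ℝ) ≤ ((d + (d * d) + 1 : ℕ) : ℝ) := by
              refine Nat.cast_le.mpr (hfrac.trans (le_of_eq ?_))
              simp only [Fintype.card_sum, Fintype.card_prod, Fintype.card_fin,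
                Fintype.card_unit]
            push_cast at hc
            nlinarith [(Nat.cast_nonneg d : (0:ℝ) ≤ d)]
    set σ := Real.sqrt (lam Lam l i * lam Lam l k) with hσ
    have hσ0 : 0 ≤ σ := Real.sqrt_nonneg _
    have hxq : |∑ a ∈ V', x₀ a * q a| ≤ 4 * rho d * s * (2 * σ) := by
      refine (abs_sum_le_sum_abs _ _).trans ?_
      calc ∑ a ∈ V', |x₀ a * q a| ≤ ∑ a ∈ V', 4 * rho d * s * (|v a i| * |v a k|) := by
            refine sum_le_sum fun a _ => ?_
            simp only [hq, abs_mul]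
            exact mul_le_mul_of_nonneg_right (hx0 a) (by positivity)
        _ ≤ _ := by
            rw [← mul_sum]
            refine mul_le_mul_of_nonneg_left ?_ hη0
            refine (abs_le_of_sq_le_sq' ?_ (by positivity)).2
            refine (sum_mul_sq_le_sq_mul_sq _ _ _).trans ?_
            simp only [sq_abs]
            have hli := (solid_pos Lam hi).le
            have hlk := (solid_pos Lam hk).le
            rw [mul_pow, hσ, Real.sq_sqrt (mul_nonneg hli hlk)]
            calc (∑ a ∈ V', v a i ^ 2) * ∑ a ∈ V', v a k ^ 2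
                ≤ (2 * lam Lam l i) * (2 * lam Lam l k) :=
                  mul_le_mul ((mass_mono v hV'V i).trans (mass_le_two_lam v Lam hLam hN hi))
                    ((mass_mono v hV'V k).trans (mass_le_two_lam v Lam hLam hN hk))
                    (sum_nonneg fun a _ => sq_nonneg _) (by positivity)
              _ = _ := by ring
    have hσ' : Real.sqrt (lam Lam (l+1) i * lam Lam (l+1) k) = σ / 2 := by
      rw [lam_succ, lam_succ, hσ, div_mul_div_comm, Real.sqrt_div' _ (by norm_num),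
        show Real.sqrt (2 * 2) = 2 by rw [Real.sqrt_mul_self]; norm_num]
    have hVq : |(∑ a ∈ V', q a) - (if i = k then lam Lam l i else 0)| ≤
        relErr Lam l * σ + 1 := by
      have h1 := hN.quad i hi k hk
      rw [← sum_sdiff hU, ← hV', ← hσ] at h1
      obtain ⟨a1, a2⟩ := abs_le.mp h1
      obtain ⟨b1, b2⟩ := abs_le.mp (hUabs U (subset_refl _) i k)
      simp only [hq]
      rw [abs_le]
      constructor <;> linarith
    have hWU : |(∑ a ∈ W', q a) - ∑ a ∈ W, q a| ≤ 1 := by
      rw [← sum_sdiff hWW', add_sub_cancel_right]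
      refine hUabs _ (fun a ha => ?_) i k
      obtain ⟨h1, h2⟩ := mem_sdiff.mp ha
      exact (mem_union.mp (hW'U h1)).resolve_left h2
    have hW1 := hhalf' W hW q
    rw [hsplit] at hW1
    have hW2 := abs_add_le (∑ a ∈ V', x₀ a * q a) (∑ a : ↥V', (ε a - x a) * q a)
    rw [hσ', relErr_succ, lam_succ, ← hs]
    have hone := one_le_invSum_mul_sqrt Lam hLam hi hk
    rw [← hσ, ← hs] at hone
    have hc : 8 * rho d + 2 * (((d:ℝ) + 1) ^ 2 + 2) ≤ cerr d := by
      have := rho_ge d
      rw [cerr]; linarith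
    have hc' := mul_le_mul_of_nonneg_right hc (mul_nonneg hs0 hσ0)
    have hone' := mul_le_mul_of_nonneg_left hone
      (show (0:ℝ) ≤ 2 * (((d:ℝ) + 1) ^ 2 + 2) by positivity)
    have e3 : (if i = k then lam Lam l i / 2 else 0) = (if i = k then lam Lam l i else 0) / 2 := by
      split_ifs <;> simp
    rw [e3]
    set c := (if i = k then lam Lam l i else 0)
    obtain ⟨a1, a2⟩ := abs_le.mp (le_of_eq hW1)
    obtain ⟨b1, b2⟩ := abs_le.mp hVq
    obtain ⟨c1, c2⟩ := abs_le.mp hWU
    change |(∑ a ∈ W', q a) - c / 2| ≤ _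
    rw [abs_le]
    constructor <;> linarith

end Vale.Agent.P262.Sharp
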