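import Vale.Agent.P262.Sharp.Child

/-!
The recursion over blocks.
-/

open Finset

namespace Vale.Agent.P262.Sharp

variable {ι : Type*} [Fintype ι] [DecidableEq ι] {d : ℕ}

variable (v : ι → Fin d → ℝ) (Lam : Fin d → ℝ) (hLam : ∀ i, 0 ≤ Lam i)
  (hv : ∀ a, ∑ i, v a i ^ 2 ≤ 1)

omit [Fintype ι] [DecidableEq ι] in
theorem sum_half_sq_le (hv : ∀ a, ∑ i, v a i ^ 2 ≤ 1) (a : ι) {σ : ℝ} (hσ : σ ^ 2 ≤ 1) :
    ∑ i, (σ * v a i / 2) ^ 2 ≤ 1/4 := by
  rw [sum_congr rfl fun i _ => (show (σ * v a i / 2) ^ 2 = σ ^ 2 / 4 * v a i ^ 2 by ring),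
    ← mul_sum]
  calc σ ^ 2 / 4 * ∑ i, v a i ^ 2 ≤ 1 / 4 * 1 :=
        mul_le_mul (by linarith) (hv a) (sum_nonneg fun i _ => sq_nonneg _) (by norm_num)
    _ = _ := mul_one _

include hLam hv in
/-- A split in which no vector dominates. -/
theorem split_even {l : ℕ} {V : Finset ι} {P : Fin d → ℝ} (hN : Node v Lam l V P)
    (hsmall : ∀ a ∈ V, gainOf v Lam l V a ≤ gainTot v Lam l V / 64) :
    ∃ V₁ ⊆ V, Node v Lam (l+1) V₁ P ∧
      Node v Lam (l+1) (V \ V₁) (fun i => P i + ∑ a ∈ V₁, v a i) ∧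
      (0 < gainTot v Lam l V → V₁ ≠ V ∧ V \ V₁ ≠ V) := by
  have hD : 0 ≤ gainTot v Lam l V := sum_nonneg fun a _ => gainOf_nonneg v Lam l V a
  obtain ⟨V₁, hsub, X, E, hmid, hXr, hXl, hsign, hEl, hEr, hbal, hquad⟩ :=
    exists_split v Lam hLam hv hN ∅ (empty_subset _) (by simp)
      (rm := gainTot v Lam l V / 64) (by linarith) (by simpa using hsmall)
  rw [sdiff_empty] at hsub hmid hbal hquad
  have hWV : ∀ W, (W = V₁ ∨ W = V \ V₁) → W ⊆ V := fun W hW => by
    rcases hW with rfl | rfl <;> [exact hsub; exact sdiff_subset]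
  have hdrop : ∀ W, (W = V₁ ∨ W = V \ V₁) →
      gainTot v Lam l V / 4 ≤ drop v Lam l V W := by
    intro W hW
    obtain ⟨-, h2⟩ := abs_le.mp (hbal W hW)
    rw [drop]
    change _ - gainTot v Lam l V / 2 ≤ _ at h2
    linarith
  have hq : ∀ W, (W = V₁ ∨ W = V \ V₁) → _ := fun W hW =>
    hquad W W hW (subset_refl _) subset_union_left
  have hlow := fun W (hW : W = V₁ ∨ W = V \ V₁) => child_low v Lam hLam hN (hWV W hW) (hq W hW)
  set M : Fin d → ℝ := fun i => P i + ∑ a ∈ V₁, v a i with hM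
  have hMle : ∀ W, (W = V₁ ∨ W = V \ V₁) → ∀ m, l + 1 ≤ m →
      ∑ i ∈ loose Lam m, M i ^ 2 ≤
        (Real.sqrt (bud v Lam (l+1) W m) + leak Lam (l+1)) ^ 2 := by
    intro W hW
    refine point_le v Lam hLam hN (hWV W hW) (hlow W hW).2
      (fun i => P i + (∑ a ∈ V, v a i) / 2) X E 0 M (fun i => ?_) hXr hsign hEl hEr
      (by simp) (g := 0) ?_ ?_
    · simp only [M, Pi.zero_apply]
      linarith [hmid i]
    · simpa using center_sq_le v Lam hLam hN X hXl
    · simp only [Pi.zero_apply]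
      have h := hdrop W hW
      norm_num
      linarith
  refine ⟨V₁, hsub, ⟨hq V₁ (Or.inl rfl) |> fun h => ?_, (hlow _ (Or.inl rfl)).1,
    stale_le v Lam hLam hN hsub (hlow _ (Or.inl rfl)).2 P hN.left, hMle _ (Or.inl rfl)⟩,
    ⟨?_, (hlow _ (Or.inr rfl)).1, hMle _ (Or.inr rfl), ?_⟩, fun hpos => ?_⟩
  · exact fun i hi k hk => h i (solid_antitone Lam hLam (Nat.le_succ l) hi) k
      (solid_antitone Lam hLam (Nat.le_succ l) hk)
  · exact fun i hi k hk => hq _ (Or.inr rfl) i (solid_antitone Lam hLam (Nat.le_succ l) hi) k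
      (solid_antitone Lam hLam (Nat.le_succ l) hk)
  · intro m hm
    refine le_trans (le_of_eq (sum_congr rfl fun i _ => ?_)) (stale_le v Lam hLam hN sdiff_subset
      (hlow _ (Or.inr rfl)).2 (fun i => P i + ∑ a ∈ V, v a i) hN.right m hm)
    rw [add_assoc, add_comm (∑ a ∈ V₁, v a i), sum_sdiff hsub]
  · constructor <;> intro h
    · have := hdrop V₁ (Or.inl rfl)
      rw [h, drop, gainTot] at this
      rw [gainTot] at hpos
      linarith
    · have := hdrop _ (Or.inr rfl)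
      rw [h, drop, gainTot] at this
      rw [gainTot] at hpos
      linarith

omit [Fintype ι] in
theorem good_middle {V V₁ : Finset ι} {P : Fin d → ℝ} {a : ι} {B : ℝ} (ha : a ∈ V)
    (hsub : V₁ ⊆ V.erase a) (h1 : Good v P V₁ B)
    (h2 : Good v (fun i => P i + (∑ b ∈ V₁, v b i) + v a i) (V.erase a \ V₁) B)
    (hf1 : ∑ i, (P i + ∑ b ∈ V₁, v b i) ^ 2 ≤ B)
    (hf2 : ∑ i, (P i + (∑ b ∈ V₁, v b i) + v a i) ^ 2 ≤ B) : Good v P V B := by
  have hM := Good.singleton (P := fun i => P i + ∑ b ∈ V₁, v b i) hf1 hf2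
  have hd1 : Disjoint ({a} : Finset ι) (V.erase a \ V₁) := Finset.disjoint_left.mpr
    fun b hb hb2 => (mem_erase.mp (mem_sdiff.mp hb2).1).1 (mem_singleton.mp hb)
  have hd2 : Disjoint V₁ ({a} ∪ (V.erase a \ V₁)) := by
    refine Finset.disjoint_left.mpr fun b hb hb2 => ?_
    rcases mem_union.mp hb2 with h | h
    · exact (mem_erase.mp (hsub hb)).1 (mem_singleton.mp h)
    · exact (mem_sdiff.mp h).2 hb
  have h := Good.append hd2 h1 (Good.append hd1 hM (by simpa using h2))
  have e : V₁ ∪ ({a} ∪ (V.erase a \ V₁)) = V := by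
    rw [union_left_comm, union_sdiff_of_subset hsub, ← insert_eq, insert_erase ha]
  rwa [e] at h

include hLam hv in
/-- A split with the dominating vector placed in the middle. -/
theorem split_middle {l : ℕ} {V : Finset ι} {P : Fin d → ℝ} (hN : Node v Lam l V P) {a : ι}
    (ha : a ∈ V) (hdom : gainTot v Lam l V / 64 ≤ gainOf v Lam l V a)
    (V₁ : Finset ι) (hsub : V₁ ⊆ V.erase a) (X E : Fin d → ℝ)
    (hmid : ∀ i, ∑ b ∈ V₁, v b i - (∑ b ∈ V.erase a, v b i) / 2 = (X i + E i) / 2)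
    (hXr : ∀ i ∈ rich Lam l, X i = -2 * (P i + (∑ b ∈ V, v b i) / 2))
    (hsign : ∑ i ∈ loose Lam l, (P i + (∑ b ∈ V, v b i) / 2 + X i / 2) * E i ≤ 0)
    (hEl : ∑ i ∈ loose Lam l, E i ^ 2 ≤ 5184 * gainTot v Lam l V)
    (hEr : ∀ S ⊆ rich Lam l, (∀ i ∈ S, ∀ k ∈ rich Lam l, Lam k ≤ Lam i → k ∈ S) →
      ∑ i ∈ S, E i ^ 2 ≤ 576 * harm d * S.card)
    (hquad : ∀ W W', (W = V₁ ∨ W = V.erase a \ V₁) → W ⊆ W' → W' ⊆ W ∪ {a} →
      ∀ i ∈ solid Lam l, ∀ k ∈ solid Lam l,
        |(∑ b ∈ W', v b i * v b k) - (if i = k then lam Lam (l+1) i else 0)| ≤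
          relErr Lam (l+1) * Real.sqrt (lam Lam (l+1) i * lam Lam (l+1) k))
    (hcore : ∑ i ∈ loose Lam l, (P i + (∑ b ∈ V, v b i) / 2 + X i / 2) ^ 2 +
        |∑ i ∈ loose Lam l, (P i + (∑ b ∈ V, v b i) / 2 + X i / 2) * v a i| ≤
          (Real.sqrt (bud v Lam l V l) + leak Lam (l+1)) ^ 2 + 2700 * gainTot v Lam l V) :
    Node v Lam (l+1) V₁ P ∧
      Node v Lam (l+1) (V.erase a \ V₁) (fun i => P i + (∑ b ∈ V₁, v b i) + v a i) ∧
      ∑ i, (P i + ∑ b ∈ V₁, v b i) ^ 2 ≤ finalBd d ∧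
      ∑ i, (P i + (∑ b ∈ V₁, v b i) + v a i) ^ 2 ≤ finalBd d := by
  have hD : 0 ≤ gainTot v Lam l V := sum_nonneg fun b _ => gainOf_nonneg v Lam l V b
  have hWe : ∀ W, (W = V₁ ∨ W = V.erase a \ V₁) → W ⊆ V.erase a := fun W hW => by
    rcases hW with rfl | rfl <;> [exact hsub; exact sdiff_subset]
  have hWV : ∀ W, (W = V₁ ∨ W = V.erase a \ V₁) → W ⊆ V := fun W hW =>
    (hWe W hW).trans (erase_subset _ _)
  have hdrop : ∀ W, (W = V₁ ∨ W = V.erase a \ V₁) →
      gainTot v Lam l V / 64 ≤ drop v Lam l V W := by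
    intro W hW
    have h := sum_le_sum_of_subset_of_nonneg (hWe W hW) fun b _ _ => gainOf_nonneg v Lam l V b
    have h2 := sum_erase_add V (gainOf v Lam l V) ha
    rw [drop, gainTot]
    rw [gainTot] at hdom
    linarith
  have hq : ∀ W, (W = V₁ ∨ W = V.erase a \ V₁) → _ := fun W hW =>
    hquad W W hW (subset_refl _) subset_union_left
  have hlow := fun W (hW : W = V₁ ∨ W = V.erase a \ V₁) =>
    child_low v Lam hLam hN (hWV W hW) (hq W hW)
  have hva := vec_le_gainTot v Lam hv l ha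
  have hsum : ∀ i, ∑ b ∈ V, v b i = (∑ b ∈ V.erase a, v b i) + v a i := fun i =>
    (sum_erase_add V (fun b => v b i) ha).symm
  have hpt : ∀ σ : ℝ, σ = 1 ∨ σ = -1 → ∀ W, (W = V₁ ∨ W = V.erase a \ V₁) → ∀ m, l + 1 ≤ m →
      ∑ i ∈ loose Lam m, (P i + (∑ b ∈ V₁, v b i) + (σ + 1) / 2 * v a i) ^ 2 ≤
        (Real.sqrt (bud v Lam (l+1) W m) + leak Lam (l+1)) ^ 2 := by
    intro σ hσ W hW
    have hσ2 : σ ^ 2 = 1 := by rcases hσ with rfl | rfl <;> norm_num
    refine point_le v Lam hLam hN (hWV W hW) (hlow W hW).2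
      (fun i => P i + (∑ b ∈ V, v b i) / 2) X E (fun i => σ * v a i / 2) _ (fun i => ?_)
      hXr hsign hEl hEr (sum_half_sq_le v hv a (le_of_eq hσ2))
      (g := 2700 * gainTot v Lam l V) ?_ ?_
    · simp only [hsum]
      linarith [hmid i]
    · refine le_trans ?_ hcore
      refine add_le_add le_rfl ?_
      rw [mul_sum]
      rcases hσ with rfl | rfl
      · refine le_trans (le_of_eq (sum_congr rfl fun i _ => ?_)) (le_abs_self _)
        ring
      · refine le_trans (le_of_eq ?_) (neg_le_abs _)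
        rw [← sum_neg_distrib]
        exact sum_congr rfl fun i _ => by ring
    · have e : ∑ i ∈ loose Lam l, (σ * v a i / 2) ^ 2 =
          (∑ i ∈ loose Lam l, v a i ^ 2) / 4 := by
        rw [sum_div]
        exact sum_congr rfl fun i _ => by rw [div_pow, mul_pow, hσ2]; ring
      rw [e]
      have := hdrop W hW
      linarith
  have h1 := hpt (-1) (Or.inr rfl)
  have h2 := hpt 1 (Or.inl rfl)
  norm_num at h1 h2
  refine ⟨⟨fun i hi k hk => hq _ (Or.inl rfl) i
      (solid_antitone Lam hLam (Nat.le_succ l) hi) k (solid_antitone Lam hLam (Nat.le_succ l) hk),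
      (hlow _ (Or.inl rfl)).1,
      stale_le v Lam hLam hN (hWV _ (Or.inl rfl)) (hlow _ (Or.inl rfl)).2 P hN.left,
      fun m hm => h1.1 m hm⟩,
    ⟨fun i hi k hk => hq _ (Or.inr rfl) i (solid_antitone Lam hLam (Nat.le_succ l) hi) k
      (solid_antitone Lam hLam (Nat.le_succ l) hk),
      (hlow _ (Or.inr rfl)).1, fun m hm => h2.2 m hm, fun m hm => ?_⟩, ?_, ?_⟩
  · refine le_trans (le_of_eq (sum_congr rfl fun i _ => ?_)) (stale_le v Lam hLam hN
      (hWV _ (Or.inr rfl)) (hlow _ (Or.inr rfl)).2 (fun i => P i + ∑ b ∈ V, v b i) hN.right m hm)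
    rw [hsum, ← sum_sdiff hsub]
    ring
  · exact final_le v Lam hLam _ fun m hm => h1.1 m hm
  · exact final_le v Lam hLam _ fun m hm => h2.1 m hm

include hLam hv in
/-- A split with the dominating vector kept on the favourable side. -/
theorem split_keep {l : ℕ} {V : Finset ι} {P : Fin d → ℝ} (hN : Node v Lam l V P) {a : ι}
    (ha : a ∈ V)
    (V₁ : Finset ι) (hsub : V₁ ⊆ V.erase a) (X E : Fin d → ℝ)
    (hmid : ∀ i, ∑ b ∈ V₁, v b i - (∑ b ∈ V.erase a, v b i) / 2 = (X i + E i) / 2)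
    (hXr : ∀ i ∈ rich Lam l, X i = -2 * (P i + (∑ b ∈ V, v b i) / 2))
    (hsign : ∑ i ∈ loose Lam l, (P i + (∑ b ∈ V, v b i) / 2 + X i / 2) * E i ≤ 0)
    (hEl : ∑ i ∈ loose Lam l, E i ^ 2 ≤ 5184 * gainTot v Lam l V)
    (hEr : ∀ S ⊆ rich Lam l, (∀ i ∈ S, ∀ k ∈ rich Lam l, Lam k ≤ Lam i → k ∈ S) →
      ∑ i ∈ S, E i ^ 2 ≤ 576 * harm d * S.card)
    (hquad : ∀ W W', (W = V₁ ∨ W = V.erase a \ V₁) → W ⊆ W' → W' ⊆ W ∪ {a} →
      ∀ i ∈ solid Lam l, ∀ k ∈ solid Lam l,
        |(∑ b ∈ W', v b i * v b k) - (if i = k then lam Lam (l+1) i else 0)| ≤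
          relErr Lam (l+1) * Real.sqrt (lam Lam (l+1) i * lam Lam (l+1) k))
    (hXl : ∑ i ∈ loose Lam l, (X i / 2) ^ 2 ≤ leakStep Lam l ^ 2)
    (hbig : 2600 * gainTot v Lam l V <
      |∑ i ∈ loose Lam l, (P i + (∑ b ∈ V, v b i) / 2 + X i / 2) * v a i|) :
    ∃ U₁ ⊆ V, Node v Lam (l+1) U₁ P ∧
      Node v Lam (l+1) (V \ U₁) (fun i => P i + ∑ b ∈ U₁, v b i) := by
  set c := ∑ i ∈ loose Lam l, (P i + (∑ b ∈ V, v b i) / 2 + X i / 2) * v a i with hc
  have hva := vec_le_gainTot v Lam hv l ha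
  have hsum : ∀ i, ∑ b ∈ V, v b i = (∑ b ∈ V.erase a, v b i) + v a i := fun i =>
    (sum_erase_add V (fun b => v b i) ha).symm
  have hanot : a ∉ V₁ := fun h => (mem_erase.mp (hsub h)).1 rfl
  obtain ⟨σ, hσ, hσc, U₁, hU₁, hU₁sum, hW1, hW2⟩ : ∃ σ : ℝ, (σ = 1 ∨ σ = -1) ∧ σ * c = -|c| ∧
      ∃ U₁ ⊆ V, (∀ i, ∑ b ∈ U₁, v b i = (∑ b ∈ V₁, v b i) + (σ + 1) / 2 * v a i) ∧
        (∃ W, (W = V₁ ∨ W = V.erase a \ V₁) ∧ W ⊆ U₁ ∧ U₁ ⊆ W ∪ {a}) ∧
        ∃ W, (W = V₁ ∨ W = V.erase a \ V₁) ∧ W ⊆ V \ U₁ ∧ V \ U₁ ⊆ W ∪ {a} := by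
    rcases le_total c 0 with h | h
    · refine ⟨1, Or.inl rfl, by rw [abs_of_nonpos h]; ring, insert a V₁,
        insert_subset ha (hsub.trans (erase_subset _ _)), fun i => by
          rw [sum_insert hanot]; ring,
        ⟨V₁, Or.inl rfl, subset_insert _ _, by
          intro b hb; simp only [mem_insert] at hb; simp only [mem_union, mem_singleton]; tauto⟩,
        ⟨_, Or.inr rfl, ?_, ?_⟩⟩ <;>
      · intro b hb
        simp only [mem_sdiff, mem_erase, mem_insert, mem_union, mem_singleton] at hb ⊢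
        tauto
    · refine ⟨-1, Or.inr rfl, by rw [abs_of_nonneg h]; ring, V₁,
        hsub.trans (erase_subset _ _), fun i => by ring,
        ⟨V₁, Or.inl rfl, subset_refl _, subset_union_left⟩,
        ⟨_, Or.inr rfl, ?_, ?_⟩⟩ <;>
      · intro b hb
        simp only [mem_sdiff, mem_erase, mem_union, mem_singleton] at hb ⊢
        tauto
  obtain ⟨W₁, hW₁, a1, b1⟩ := hW1
  obtain ⟨W₂, hW₂, a2, b2⟩ := hW2
  have hq1 := hquad W₁ U₁ hW₁ a1 b1
  have hq2 := hquad W₂ (V \ U₁) hW₂ a2 b2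
  have hl1 := child_low v Lam hLam hN hU₁ hq1
  have hl2 := child_low v Lam hLam hN sdiff_subset hq2
  have hσ2 : σ ^ 2 = 1 := by rcases hσ with rfl | rfl <;> norm_num
  have hpt : ∀ U ⊆ V, (∀ i ∈ loose Lam (l+1), mass v U i ≤ 2 * richThr d) → ∀ m, l + 1 ≤ m →
      ∑ i ∈ loose Lam m, (P i + ∑ b ∈ U₁, v b i) ^ 2 ≤
        (Real.sqrt (bud v Lam (l+1) U m) + leak Lam (l+1)) ^ 2 := by
    intro U hUV hUm
    refine point_le v Lam hLam hN hUV hUm
      (fun i => P i + (∑ b ∈ V, v b i) / 2) X E (fun i => σ * v a i / 2) _ (fun i => ?_)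
      hXr hsign hEl hEr (sum_half_sq_le v hv a (le_of_eq hσ2))
      (g := -(2600 * gainTot v Lam l V)) ?_ ?_
    · simp only [hsum, hU₁sum]
      linarith [hmid i]
    · have h := center_sq_le v Lam hLam hN X hXl
      have e : 2 * ∑ i ∈ loose Lam l,
          (P i + (∑ b ∈ V, v b i) / 2 + X i / 2) * (σ * v a i / 2) = σ * c := by
        rw [hc, mul_sum, mul_sum]
        exact sum_congr rfl fun i _ => by ring
      rw [e, hσc]
      linarith
    · have e : ∑ i ∈ loose Lam l, (σ * v a i / 2) ^ 2 =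
          (∑ i ∈ loose Lam l, v a i ^ 2) / 4 := by
        rw [sum_div]
        exact sum_congr rfl fun i _ => by rw [div_pow, mul_pow, hσ2]; ring
      rw [e]
      have := drop_nonneg v Lam (l := l) hUV
      have hD : 0 ≤ gainTot v Lam l V := sum_nonneg fun b _ => gainOf_nonneg v Lam l V b
      linarith
  refine ⟨U₁, hU₁, ⟨fun i hi k hk => hq1 i (solid_antitone Lam hLam (Nat.le_succ l) hi) k
      (solid_antitone Lam hLam (Nat.le_succ l) hk), hl1.1,
      stale_le v Lam hLam hN hU₁ hl1.2 P hN.left, hpt U₁ hU₁ hl1.2⟩,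
    ⟨fun i hi k hk => hq2 i (solid_antitone Lam hLam (Nat.le_succ l) hi) k
      (solid_antitone Lam hLam (Nat.le_succ l) hk), hl2.1, hpt _ sdiff_subset hl2.2,
      fun m hm => ?_⟩⟩
  refine le_trans (le_of_eq (sum_congr rfl fun i _ => ?_)) (stale_le v Lam hLam hN sdiff_subset
    hl2.2 (fun i => P i + ∑ b ∈ V, v b i) hN.right m hm)
  rw [← sum_sdiff hU₁]
  ring

include hLam hv in
/-- The step while some coordinate still has controlled second moments. -/
theorem step {l : ℕ} {V : Finset ι} {P : Fin d → ℝ} (hN : Node v Lam l V P)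
    (ih : ∀ W P', Node v Lam (l+1) W P' → Good v P' W (finalBd d)) :
    Good v P V (finalBd d) := by
  by_cases hsmall : ∀ a ∈ V, gainOf v Lam l V a ≤ gainTot v Lam l V / 64
  · obtain ⟨V₁, hsub, hN1, hN2, -⟩ := split_even v Lam hLam hv hN hsmall
    have h := Good.append disjoint_sdiff (ih _ _ hN1) (ih _ _ hN2)
    rwa [union_sdiff_of_subset hsub] at h
  simp only [not_forall, not_le] at hsmall
  obtain ⟨a, ha, hdom⟩ := hsmall
  obtain ⟨V₁, hsub, X, E, hmid, hXr, hXl, hsign, hEl, hEr, -, hquad⟩ :=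
    exists_split v Lam hLam hv hN {a} (singleton_subset_iff.mpr ha) (by simp)
      (rm := gainTot v Lam l V) (sum_nonneg fun b _ => gainOf_nonneg v Lam l V b)
      (fun b hb => single_le_sum (fun c _ => gainOf_nonneg v Lam l V c) (sdiff_subset hb))
  rw [sdiff_singleton_eq_erase] at hsub hmid hquad
  by_cases hbig : 2600 * gainTot v Lam l V <
      |∑ i ∈ loose Lam l, (P i + (∑ b ∈ V, v b i) / 2 + X i / 2) * v a i|
  · obtain ⟨U₁, hU₁, hN1, hN2⟩ :=
      split_keep v Lam hLam hv hN ha V₁ hsub X E hmid hXr hsign hEl hEr hquad hXl hbig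
    have h := Good.append disjoint_sdiff (ih _ _ hN1) (ih _ _ hN2)
    rwa [union_sdiff_of_subset hU₁] at h
  · have hD : 0 ≤ gainTot v Lam l V := sum_nonneg fun b _ => gainOf_nonneg v Lam l V b
    obtain ⟨hN1, hN2, hf1, hf2⟩ := split_middle v Lam hLam hv hN ha hdom.le V₁ hsub X E hmid
      hXr hsign hEl hEr hquad
      (add_le_add (center_sq_le v Lam hLam hN X hXl) (by linarith [not_lt.mp hbig]))
    exact good_middle v ha hsub (ih _ _ hN1) (ih _ _ hN2) hf1 hf2

include hLam hv in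
/-- The recursion once all coordinates have small nominal mass. -/
theorem finish : ∀ (V : Finset ι) (l : ℕ) (P : Fin d → ℝ), solid Lam l = ∅ → Node v Lam l V P →
    Good v P V (finalBd d) := by
  intro V
  induction V using Finset.strongInduction with
  | H V ih =>
    intro l P hsol hN
    have hrich : rich Lam l = ∅ := subset_empty.mp (hsol ▸ rich_subset_solid Lam l)
    have hloose : loose Lam l = univ := eq_univ_of_forall fun i =>
      (mem_loose Lam).mpr (by simp [hrich])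
    have hsol' : solid Lam (l+1) = ∅ :=
      subset_empty.mp (hsol ▸ solid_antitone Lam hLam (Nat.le_succ l))
    have hleak : leakStep Lam l = 0 := by simp [leakStep, hrich]
    have hb0 : ∀ m, 0 ≤ bud v Lam l V m := bud_nonneg v Lam hLam hN
    by_cases hsmall : ∀ a ∈ V, gainOf v Lam l V a ≤ gainTot v Lam l V / 64
    · rcases (sum_nonneg fun b _ => gainOf_nonneg v Lam l V b :
          (0:ℝ) ≤ gainTot v Lam l V).eq_or_lt with h0 | hpos
      · refine Good.of_zero (fun a ha i => ?_) (final_le v Lam hLam P hN.left)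
        have h1 := (sum_eq_zero_iff_of_nonneg fun b _ => gainOf_nonneg v Lam l V b).mp h0.symm a ha
        have h2 := (sum_eq_zero_iff_of_nonneg fun k _ => div_nonneg (sq_nonneg (v a k))
          (by linarith [mass_nonneg v V k])).mp h1 i (hloose ▸ mem_univ i)
        have h3 : 1 + mass v V i ≠ 0 := by linarith [mass_nonneg v V i]
        exact sq_eq_zero_iff.mp ((div_eq_zero_iff.mp h2).resolve_right h3)
      · obtain ⟨V₁, hsub, hN1, hN2, hne⟩ := split_even v Lam hLam hv hN hsmall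
        obtain ⟨ne1, ne2⟩ := hne hpos
        have h := Good.append disjoint_sdiff
          (ih V₁ (ssubset_of_subset_of_ne hsub ne1) (l+1) P hsol' hN1)
          (ih (V \ V₁) (ssubset_of_subset_of_ne sdiff_subset ne2) (l+1) _ hsol' hN2)
        rwa [union_sdiff_of_subset hsub] at h
    simp only [not_forall, not_le] at hsmall
    obtain ⟨a, ha, hdom⟩ := hsmall
    have hD : 0 ≤ gainTot v Lam l V := sum_nonneg fun b _ => gainOf_nonneg v Lam l V b
    have hva := vec_le_gainTot v Lam hv l ha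
    rw [hloose] at hva
    have hsum : ∀ i, ∑ b ∈ V, v b i = (∑ b ∈ V.erase a, v b i) + v a i := fun i =>
      (sum_erase_add V (fun b => v b i) ha).symm
    have herase : V.erase a ⊂ V := erase_ssubset ha
    have hmass : ∀ i ∈ loose Lam l, mass v (V.erase a) i ≤ 2 * richThr d := fun i hi =>
      (mass_mono v (erase_subset _ _) i).trans (mass_le_rich v Lam hLam hN hi)
    have hbudm : ∀ m, bud v Lam l V m + 340000 * (gainTot v Lam l V / 64) ≤
        bud v Lam l (V.erase a) m := by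
      intro m
      have h := bud_child v Lam hLam (le_refl l) (erase_subset a V) hmass (m₀ := m) (m := m)
      have h2 := sum_erase_add V (gainOf v Lam l V) ha
      rw [drop, gainTot] at h
      rw [gainTot] at hdom ⊢
      linarith
    have hl1 : ∀ i, i ∉ solid Lam l → mass v (V.erase a) i ≤ 2 * lowThr d := fun i hi =>
      (mass_mono v (erase_subset _ _) i).trans (hN.low i hi)
    have hgrow : ∀ (Q : Fin d → ℝ) (s : ℝ), s * s = 1 → s * ∑ i, Q i * v a i ≤ 0 →
        (∀ m, l ≤ m → ∑ i ∈ loose Lam m, Q i ^ 2 ≤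
          (Real.sqrt (bud v Lam l V m) + leak Lam l) ^ 2) →
        ∀ m, l ≤ m → ∑ i ∈ loose Lam m, (Q i + s * v a i) ^ 2 ≤
          (Real.sqrt (bud v Lam l (V.erase a) m) + leak Lam l) ^ 2 := by
      intro Q s hs hle hQ m hm
      have hum : loose Lam m = univ := eq_univ_of_forall fun i =>
        loose_mono Lam hLam hm (hloose ▸ mem_univ i)
      have hQm := hQ m hm
      rw [hum] at hQm ⊢
      refine le_trans ?_ (sqrt_shift (leak_nonneg Lam l) (hb0 m)
        (show (0:ℝ) ≤ 340000 * (gainTot v Lam l V / 64) by positivity) (hbudm m))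
      have e : ∑ i, (Q i + s * v a i) ^ 2 =
          (∑ i, Q i ^ 2) + 2 * (s * ∑ i, Q i * v a i) + ∑ i, v a i ^ 2 := by
        simp only [mul_sum, ← sum_add_distrib]
        exact sum_congr rfl fun i _ => by linear_combination (v a i ^ 2) * hs
      rw [e]
      linarith
    have hkeep : ∀ m, l ≤ m → ∀ Q : Fin d → ℝ,
        ∑ i ∈ loose Lam m, Q i ^ 2 ≤ (Real.sqrt (bud v Lam l V m) + leak Lam l) ^ 2 →
        ∑ i ∈ loose Lam m, Q i ^ 2 ≤
          (Real.sqrt (bud v Lam l (V.erase a) m) + leak Lam l) ^ 2 := fun m _ Q hQ =>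
      hQ.trans (pow_le_pow_left₀ (add_nonneg (Real.sqrt_nonneg _) (leak_nonneg Lam l))
        (add_le_add (Real.sqrt_le_sqrt (by linarith [hbudm m])) le_rfl) 2)
    by_cases hP : ∑ i, P i * v a i ≤ 0
    · have hP' := hgrow P 1 (one_mul 1) (by linarith) hN.left
      simp only [one_mul] at hP'
      have hrec := ih _ herase l (fun i => P i + v a i) hsol
        ⟨by simp [hsol], hl1, hP', fun m hm => by
          refine le_trans (le_of_eq (sum_congr rfl fun i _ => ?_))
            (hkeep m hm (fun i => P i + ∑ b ∈ V, v b i) (hN.right m hm))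
          rw [hsum]; ring⟩
      have h := Good.append (Finset.disjoint_left.mpr fun b hb hb2 =>
          (mem_erase.mp hb2).1 (mem_singleton.mp hb))
        (Good.singleton (final_le v Lam hLam P hN.left) (final_le v Lam hLam _ hP'))
        (show Good v (fun i => P i + ∑ b ∈ {a}, v b i) (V.erase a) (finalBd d) by
          simpa using hrec)
      rwa [← insert_eq, insert_erase ha] at h
    by_cases hR : 0 ≤ ∑ i, (P i + ∑ b ∈ V, v b i) * v a i
    · have hR' := hgrow (fun i => P i + ∑ b ∈ V, v b i) (-1) (by norm_num) (by linarith) hN.right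
      have hrec := ih _ herase l P hsol
        ⟨by simp [hsol], hl1, fun m hm => hkeep m hm P (hN.left m hm), fun m hm => by
          refine le_trans (le_of_eq (sum_congr rfl fun i _ => ?_)) (hR' m hm)
          rw [hsum]; ring⟩
      have h := Good.append (Finset.disjoint_left.mpr fun b hb hb2 =>
          (mem_erase.mp hb).1 (mem_singleton.mp hb2)) hrec
        (Good.singleton
          (final_le v Lam hLam (l := l) (V := V.erase a) _ fun m hm =>
            le_trans (le_of_eq (sum_congr rfl fun i _ => by rw [hsum]; ring)) (hR' m hm))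
          (le_trans (le_of_eq (sum_congr rfl fun i _ => by rw [hsum]; ring))
            (final_le v Lam hLam (fun i => P i + ∑ b ∈ V, v b i) hN.right)))
      rwa [union_comm, ← insert_eq, insert_erase ha] at h
    obtain ⟨V₁, hsub, X, E, hmid, hXr, hXl, hsign, hEl, hEr, -, hquad⟩ :=
      exists_split v Lam hLam hv hN {a} (singleton_subset_iff.mpr ha) (by simp)
        (rm := gainTot v Lam l V) hD
        (fun b hb => single_le_sum (fun c _ => gainOf_nonneg v Lam l V c) (sdiff_subset hb))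
    rw [sdiff_singleton_eq_erase] at hsub hmid hquad
    have hX0 : ∀ i, X i = 0 := by
      intro i
      rw [hleak] at hXl
      have h : (X i / 2) ^ 2 ≤ 0 := (single_le_sum (f := fun i => (X i / 2) ^ 2)
        (fun j _ => sq_nonneg _) (hloose ▸ mem_univ i)).trans (hXl.trans (le_of_eq (by norm_num)))
      linarith [sq_eq_zero_iff.mp (le_antisymm h (sq_nonneg _))]
    have hgap : ∑ i, (P i + (∑ b ∈ V, v b i) / 2) ^ 2 +
        |∑ i, (P i + (∑ b ∈ V, v b i) / 2) * v a i| ≤
        (Real.sqrt (bud v Lam l V l) + leak Lam l) ^ 2 + (∑ i, v a i ^ 2) / 4 := by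
      have hl := hN.left l le_rfl
      have hr := hN.right l le_rfl
      rw [hloose] at hl hr
      set S : Fin d → ℝ := fun i => ∑ b ∈ V, v b i with hS
      have e1 : ∑ i, (P i + S i / 2) ^ 2 =
          ((∑ i, P i ^ 2) + ∑ i, (P i + S i) ^ 2) / 2 - (∑ i, S i ^ 2) / 4 := by
        rw [← sum_add_distrib, sum_div, sum_div, ← sum_sub_distrib]
        exact sum_congr rfl fun i _ => by ring
      have e2 : ∑ i, (P i + S i / 2) * v a i =
          ((∑ i, P i * v a i) + ∑ i, (P i + S i) * v a i) / 2 := by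
        rw [← sum_add_distrib, sum_div]
        exact sum_congr rfl fun i _ => by ring
      have e3 : ∑ i, (P i + S i) * v a i = (∑ i, P i * v a i) + ∑ i, S i * v a i := by
        rw [← sum_add_distrib]; exact sum_congr rfl fun i _ => by ring
      have h4 : -(∑ i, S i * v a i) ≤ (∑ i, S i ^ 2) / 2 + (∑ i, v a i ^ 2) / 2 := by
        rw [← sum_neg_distrib, sum_div, sum_div, ← sum_add_distrib]
        refine sum_le_sum fun i _ => ?_
        nlinarith [sq_nonneg (S i + v a i)]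
      have h5 : |∑ i, (P i + S i / 2) * v a i| ≤ -(∑ i, S i * v a i) / 2 := by
        rw [e2, e3, abs_le]
        change ¬ 0 ≤ ∑ i, (P i + S i) * v a i at hR
        rw [e3] at hR
        constructor <;> linarith
      change ∑ i, (P i + S i / 2) ^ 2 + |∑ i, (P i + S i / 2) * v a i| ≤ _
      linarith
    obtain ⟨hN1, hN2, hf1, hf2⟩ := split_middle v Lam hLam hv hN ha hdom.le V₁ hsub X E hmid
      hXr hsign hEl hEr hquad (by
        simp only [hloose, hX0, zero_div, add_zero, leak_succ, hleak]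
        linarith)
    exact good_middle v ha hsub
      (ih V₁ (lt_of_le_of_lt hsub herase) (l+1) P hsol' hN1)
      (ih _ (lt_of_le_of_lt sdiff_subset herase) (l+1) _ hsol' hN2) hf1 hf2

omit [DecidableEq ι] in
include hv in
/-- A zero-sum family with orthogonal coordinate rows has a good order. -/
theorem exists_order [DecidableEq ι] (hzero : ∀ i, ∑ a, v a i = 0)
    (horth : ∀ i k, i ≠ k → ∑ a, v a i * v a k = 0) :
    Good v 0 univ (finalBd d) := by
  set Lam : Fin d → ℝ := fun i => ∑ a, v a i ^ 2 with hL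
  have hLam : ∀ i, 0 ≤ Lam i := fun i => sum_nonneg fun a _ => sq_nonneg _
  obtain ⟨L, -, -, hLs⟩ := exists_all_loose Lam hLam 0
  have key : ∀ n l, l + n = L → ∀ V P, Node v Lam l V P → Good v P V (finalBd d) := by
    intro n
    induction n with
    | zero =>
      intro l hl V P hN
      rw [add_zero] at hl
      exact finish v Lam hLam hv V l P (hl ▸ hLs) hN
    | succ n ih => exact fun l hl V P hN => step v Lam hLam hv hN (ih (l+1) (by omega))
  refine key L 0 (zero_add _) univ 0 ⟨fun i _ k _ => ?_, fun i hi => ?_, ?_, ?_⟩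
  · rw [relErr, range_zero, sum_empty, mul_zero, zero_mul]
    split_ifs with h
    · subst h
      simp [lam, hL, sq]
    · simp [horth i k h]
  · have h : Lam i < lowThr d := not_le.mp fun hh => hi ((mem_solid Lam).mpr (by simpa using hh))
    have := lowThr_pos d
    simp only [hL] at h
    rw [mass]
    linarith
  all_goals
    intro m _
    simp only [Pi.zero_apply, zero_add, hzero]
    simp [sq_nonneg]

end Vale.Agent.P262.Sharp
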